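import Mathlib

/-!
Row 110: functional calculus tools: the factorisation lemma and chains of level functions.
-/

set_option autoImplicit false

noncomputable section

namespace Crest.Agent.R110

open Filter Topology

universe u

variable {D : Type u} [CStarAlgebra D]

lemma nsq (x : D) : ‖star x * x‖ = ‖x‖ ^ 2 := by
  rw [CStarRing.norm_star_mul_self, sq]

lemma nsq' (x : D) : ‖x * star x‖ = ‖x‖ ^ 2 := by
  rw [CStarRing.norm_self_mul_star, sq]

lemma nm3 (x y z : D) : ‖x * y * z‖ ≤ ‖x‖ * ‖y‖ * ‖z‖ :=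
  (norm_mul_le _ _).trans (mul_le_mul_of_nonneg_right (norm_mul_le _ _) (norm_nonneg _))

lemma nconj (x y : D) : ‖star x * y * x‖ ≤ ‖y‖ * ‖x‖ ^ 2 := by
  have := nm3 (star x) y x
  rw [norm_star] at this
  nlinarith

section CFC

variable {m : D}

lemma cm (f g : ℝ → ℝ) (hf : Continuous f) (hg : Continuous g) :
    cfc f m * cfc g m = cfc (fun t => f t * g t) m :=
  (cfc_mul f g m hf.continuousOn hg.continuousOn).symm

lemma cml (hm : IsSelfAdjoint m) (f : ℝ → ℝ) (hf : Continuous f) :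
    m * cfc f m = cfc (fun t => t * f t) m := by
  rw [cfc_mul (fun t => t) f m continuousOn_id hf.continuousOn, cfc_id' ℝ m]

lemma cmr (hm : IsSelfAdjoint m) (f : ℝ → ℝ) (hf : Continuous f) :
    cfc f m * m = cfc (fun t => f t * t) m := by
  rw [cfc_mul f (fun t => t) m hf.continuousOn continuousOn_id, cfc_id' ℝ m]

lemma csub (f g : ℝ → ℝ) (hf : Continuous f) (hg : Continuous g) :
    cfc f m - cfc g m = cfc (fun t => f t - g t) m :=
  (cfc_sub f g m hf.continuousOn hg.continuousOn).symm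

lemma c1sub (hm : IsSelfAdjoint m) (f : ℝ → ℝ) (hf : Continuous f) :
    1 - cfc f m = cfc (fun t => 1 - f t) m := by
  rw [cfc_sub (fun _ => 1) f m continuousOn_const hf.continuousOn, cfc_const_one ℝ m]

lemma ccomm (hm : IsSelfAdjoint m) (f : ℝ → ℝ) (hf : Continuous f) : Commute (cfc f m) m := by
  rw [Commute, SemiconjBy, cml hm f hf, cmr hm f hf]
  simp only [mul_comm]

end CFC

lemma spec_nonneg (x : D) : ∀ t ∈ spectrum ℝ (star x * x), 0 ≤ t := by
  let _ := CStarAlgebra.spectralOrder D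
  have := CStarAlgebra.spectralOrderedRing D
  exact fun t ht => spectrum_nonneg_of_nonneg (star_mul_self_nonneg x) ht

lemma cnorm (x : D) (f : ℝ → ℝ) {c : ℝ} (hc : 0 ≤ c) (h : ∀ t, 0 ≤ t → |f t| ≤ c) :
    ‖cfc f (star x * x)‖ ≤ c :=
  norm_cfc_le hc fun t ht => h t (spec_nonneg x t ht)

lemma exists_sqrt (x : D) : ∃ q : D, IsSelfAdjoint q ∧ q * q = star x * x := by
  let _ := CStarAlgebra.spectralOrder D
  have := CStarAlgebra.spectralOrderedRing D
  exact ⟨CFC.sqrt (star x * x), IsSelfAdjoint.of_nonneg (CFC.sqrt_nonneg _),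
    CFC.sqrt_mul_sqrt_self _ (star_mul_self_nonneg x)⟩

lemma exists_sqrt_add (x y : D) : ∃ q : D, star q * q = star x * x + star y * y := by
  let _ := CStarAlgebra.spectralOrder D
  have := CStarAlgebra.spectralOrderedRing D
  refine ⟨CFC.sqrt (star x * x + star y * y), ?_⟩
  rw [(IsSelfAdjoint.of_nonneg (CFC.sqrt_nonneg _)).star_eq]
  exact CFC.sqrt_mul_sqrt_self _ (add_nonneg (star_mul_self_nonneg x) (star_mul_self_nonneg y))

lemma norm_le_of_add {q x y : D} (h : star q * q = star x * x + star y * y) : ‖x‖ ≤ ‖q‖ := by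
  let _ := CStarAlgebra.spectralOrder D
  have := CStarAlgebra.spectralOrderedRing D
  have h1 : star x * x ≤ star q * q := by
    rw [h]; exact le_add_of_nonneg_right (star_mul_self_nonneg y)
  have h2 := CStarAlgebra.norm_le_norm_of_nonneg_of_le (star_mul_self_nonneg x) h1
  rw [nsq, nsq] at h2
  exact abs_le_of_sq_le_sq' h2 (norm_nonneg _) |>.2

lemma exists_sqrt_one_sub {w : D} (hw : ‖w‖ ≤ 1) :
    ∃ q : D, IsSelfAdjoint q ∧ q * q = 1 - star w * w := by
  let _ := CStarAlgebra.spectralOrder D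
  have := CStarAlgebra.spectralOrderedRing D
  have h1 : star w * w ≤ 1 := by
    rw [← CStarAlgebra.norm_le_one_iff_of_nonneg _ (star_mul_self_nonneg w), nsq]
    nlinarith [norm_nonneg w]
  exact ⟨CFC.sqrt (1 - star w * w), IsSelfAdjoint.of_nonneg (CFC.sqrt_nonneg _),
    CFC.sqrt_mul_sqrt_self _ (sub_nonneg.2 h1)⟩

/-- Truncated inverse square root. -/
def rinv (δ t : ℝ) : ℝ := 1 / √(max t δ)

lemma rinv_cont {δ : ℝ} (hδ : 0 < δ) : Continuous (rinv δ) := by
  refine continuous_const.div (by fun_prop) fun t => ?_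
  exact (Real.sqrt_pos.2 (lt_max_of_lt_right hδ)).ne'

lemma rinv_pos {δ : ℝ} (hδ : 0 < δ) (t : ℝ) : 0 < rinv δ t :=
  one_div_pos.2 (Real.sqrt_pos.2 (lt_max_of_lt_right hδ))

lemma rinv_sq {δ : ℝ} (hδ : 0 < δ) (t : ℝ) : rinv δ t * rinv δ t * max t δ = 1 := by
  have h : 0 < max t δ := lt_max_of_lt_right hδ
  unfold rinv
  rw [div_mul_div_comm, Real.mul_self_sqrt h.le]
  field_simp

lemma rinv_mul_le {δ : ℝ} (hδ : 0 < δ) (t : ℝ) : rinv δ t * t * rinv δ t ≤ 1 := by
  have h1 := rinv_sq hδ t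
  have h2 := rinv_pos hδ t
  have h3 := le_max_left t δ
  nlinarith [mul_pos h2 h2]

lemma rinv_anti {δ δ' : ℝ} (hδ' : 0 < δ') (h : δ' ≤ δ) (t : ℝ) : rinv δ t ≤ rinv δ' t :=
  one_div_le_one_div_of_le (Real.sqrt_pos.2 (lt_max_of_lt_right hδ'))
    (Real.sqrt_le_sqrt (max_le_max le_rfl h))

lemma rinv_of_le {δ δ' t : ℝ} (h : δ' ≤ δ) (ht : δ ≤ t) : rinv δ t = rinv δ' t := by
  unfold rinv
  rw [max_eq_left ht, max_eq_left (h.trans ht)]

lemma rinv_of_le' {δ t : ℝ} (hδ : 0 < δ) (ht : δ ≤ t) : rinv δ t * t * rinv δ t = 1 := by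
  have := rinv_sq hδ t
  rw [max_eq_left ht] at this
  linarith

lemma cut_bound {k t δ : ℝ} (ht : 0 ≤ t) (hδ : 0 ≤ δ) (h0 : 0 ≤ k) (h1 : k ≤ 1)
    (h2 : δ ≤ t → k = 0) : |k * t * k| ≤ δ := by
  rw [abs_of_nonneg (by positivity)]
  rcases le_or_gt δ t with h | h
  · rw [h2 h]; simpa using hδ
  · have : k * k ≤ 1 := by nlinarith
    nlinarith

/-- The factorisation lemma: if `φ φ⋆ ≤ C² x⋆x` then `φ⋆φ = y⋆y` with `y` a limit of elements
`x d`, `‖d‖ ≤ C`. -/
theorem fact (x φ : D) {C : ℝ} (hC : 0 ≤ C)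
    (h : ∀ K : D, IsSelfAdjoint K → ‖K * φ‖ ≤ C * ‖x * K‖) :
    ∃ y ∈ closure {y | ∃ d : D, ‖d‖ ≤ C ∧ y = x * d}, star y * y = star φ * φ := by
  set m := star x * x with hm
  have hsa : IsSelfAdjoint m := IsSelfAdjoint.star_mul_self x
  have hK : ∀ (k : ℝ → ℝ) (δ : ℝ), Continuous k → 0 ≤ δ → (∀ t, 0 ≤ t → |k t * t * k t| ≤ δ) →
      ‖cfc k m * φ‖ ≤ C * √δ := by
    intro k δ hk hδ hb
    have h1 : IsSelfAdjoint (cfc k m) := cfc_predicate _ _
    refine (h _ h1).trans (mul_le_mul_of_nonneg_left ?_ hC)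
    refine Real.le_sqrt_of_sq_le ?_
    rw [← nsq, star_mul, h1.star_eq, ← mul_assoc, mul_assoc _ (star x), ← hm, cmr hsa k hk,
      cm _ _ (by fun_prop) hk]
    exact cnorm x _ hδ hb
  have hK2 : ∀ (k : ℝ → ℝ) (δ : ℝ), Continuous k → 0 ≤ δ → (∀ t, 0 ≤ t → |k t * t * k t| ≤ δ) →
      ‖star φ * cfc k m * φ‖ ≤ ‖φ‖ * (C * √δ) := by
    intro k δ hk hδ hb
    rw [mul_assoc]
    refine (norm_mul_le _ _).trans ?_
    rw [norm_star]
    exact mul_le_mul_of_nonneg_left (hK k δ hk hδ hb) (norm_nonneg _)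
  have hsq : ∀ (k : ℝ → ℝ), Continuous k → star (x * (cfc k m * φ)) * (x * (cfc k m * φ)) =
      star φ * cfc (fun t => k t * t * k t) m * φ := by
    intro k hk
    have h1 : IsSelfAdjoint (cfc k m) := cfc_predicate _ _
    rw [← cm _ _ (by fun_prop) hk, ← cmr hsa k hk, star_mul, star_mul, h1.star_eq, hm]
    simp only [mul_assoc]
  let δ : ℕ → ℝ := fun n => 1 / ((n : ℝ) + 1)
  have hδ : ∀ n, 0 < δ n := fun n => by positivity
  have hδt : Tendsto δ atTop (𝓝 0) := tendsto_one_div_add_atTop_nhds_zero_nat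
  have hbt : Tendsto (fun n => ‖φ‖ * (C * √(δ n))) atTop (𝓝 0) := by
    have := ((hδt.sqrt).const_mul C).const_mul ‖φ‖
    simpa using this
  let y : ℕ → D := fun n => x * (cfc (rinv (δ n)) m * φ)
  have hy : CauchySeq y := by
    refine cauchySeq_of_le_tendsto_0' (fun n => √(‖φ‖ * (C * √(δ n)))) (fun n k hnk => ?_)
      (by simpa using hbt.sqrt)
    have hle : δ k ≤ δ n := one_div_le_one_div_of_le (by positivity) (by
      have : (n : ℝ) ≤ k := by exact_mod_cast hnk
      linarith)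
    have hc : Continuous fun t => rinv (δ k) t - rinv (δ n) t :=
      (rinv_cont (hδ k)).sub (rinv_cont (hδ n))
    rw [dist_comm, dist_eq_norm]
    refine Real.le_sqrt_of_sq_le ?_
    have e : y k - y n = x * (cfc (fun t => rinv (δ k) t - rinv (δ n) t) m * φ) := by
      rw [← csub _ _ (rinv_cont (hδ k)) (rinv_cont (hδ n)), sub_mul, mul_sub]
    rw [← nsq, e, hsq _ hc]
    refine hK2 _ _ (by fun_prop) (hδ n).le fun t ht => ?_
    have a1 := rinv_anti (hδ k) hle t
    have a2 := rinv_pos (hδ n) t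
    have a3 := rinv_mul_le (hδ k) t
    refine cut_bound ht (hδ n).le (mul_nonneg (mul_nonneg (by linarith) ht) (by linarith)) ?_ ?_
    · have : (rinv (δ k) t - rinv (δ n) t) * (rinv (δ k) t - rinv (δ n) t) ≤
          rinv (δ k) t * rinv (δ k) t := by nlinarith
      nlinarith
    · intro h2
      rw [rinv_of_le hle h2]; simp
  obtain ⟨z, hz⟩ := cauchySeq_tendsto_of_complete hy
  refine ⟨z, mem_closure_of_tendsto hz (Eventually.of_forall fun n => ⟨_, ?_, rfl⟩), ?_⟩
  · have := hK (rinv (δ n)) 1 (rinv_cont (hδ n)) zero_le_one fun t ht => by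
      rw [abs_of_nonneg (by have := rinv_pos (hδ n) t; positivity)]
      exact rinv_mul_le (hδ n) t
    simpa using this
  · have h1 : Tendsto (fun n => star (y n) * y n) atTop (𝓝 (star z * z)) := hz.star.mul hz
    have h2 : Tendsto (fun n => star (y n) * y n) atTop (𝓝 (star φ * φ)) := by
      rw [tendsto_iff_norm_sub_tendsto_zero]
      refine squeeze_zero (fun _ => norm_nonneg _) (fun n => ?_) hbt
      have hc := rinv_cont (hδ n)
      rw [norm_sub_rev]
      have e : star φ * φ - star (y n) * y n =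
          star φ * cfc (fun t => 1 - rinv (δ n) t * t * rinv (δ n) t) m * φ := by
        rw [hsq _ hc, ← c1sub hsa _ (by fun_prop)]
        noncomm_ring
      rw [e]
      refine hK2 _ _ (by fun_prop) (hδ n).le fun t ht => ?_
      have a2 := rinv_pos (hδ n) t
      refine cut_bound ht (hδ n).le (by linarith [rinv_mul_le (hδ n) t])
        (by have : 0 ≤ rinv (δ n) t * t * rinv (δ n) t := by positivity
            linarith) fun h2 => ?_
      rw [rinv_of_le' (hδ n) h2, sub_self]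
    exact tendsto_nhds_unique h1 h2

/-- The ramp function. -/
def ramp (a b t : ℝ) : ℝ := max 0 (min 1 ((t - a) / (b - a)))

lemma ramp_cont (a b : ℝ) : Continuous (ramp a b) := by
  unfold ramp; fun_prop

lemma ramp_nonneg (a b t : ℝ) : 0 ≤ ramp a b t := le_max_left _ _

lemma ramp_le (a b t : ℝ) : ramp a b t ≤ 1 := max_le zero_le_one (min_le_left _ _)

lemma ramp_zero {a b t : ℝ} (h : a < b) (ht : t ≤ a) : ramp a b t = 0 :=
  max_eq_left ((min_le_right _ _).trans
    (div_nonpos_of_nonpos_of_nonneg (by linarith) (by linarith)))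

lemma ramp_one {a b t : ℝ} (h : a < b) (ht : b ≤ t) : ramp a b t = 1 := by
  unfold ramp
  rw [min_eq_left ((one_le_div (by linarith)).2 (by linarith))]
  simp

/-- A chain of positive contractions, each a unit for the next one. -/
structure Chain (κ : ℕ → D) : Prop where
  sa : ∀ i, star (κ i) = κ i
  le : ∀ i, ‖κ i‖ ≤ 1
  le' : ∀ i, ‖1 - κ i‖ ≤ 1
  mul : ∀ i, κ i * κ (i + 1) = κ (i + 1)

/-- Level functions of a positive element. -/
theorem lev0 (W : D) {δ β : ℝ} (hδ : 0 < δ) (hβ : δ < β) :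
    ∃ (ν : ℕ → D) (G : D), Chain ν ∧ star G = G ∧ ‖G‖ ^ 2 * δ ≤ 1 ∧ Commute G (star W * W) ∧
      (∀ i, Commute (ν i) (star W * W)) ∧ (∀ i, Commute G (ν i)) ∧
      G * G * (star W * W) * ν 0 = ν 0 ∧ ∀ i, ‖star W * W * (1 - ν i)‖ ≤ β := by
  set m := star W * W with hm
  have hsa : IsSelfAdjoint m := IsSelfAdjoint.star_mul_self W
  let a : ℕ → ℝ := fun i => β - (β - δ) / ((i : ℝ) + 1)
  have ha : ∀ i, a i < a (i + 1) := fun i => by
    have : (β - δ) / (((i + 1 : ℕ) : ℝ) + 1) < (β - δ) / ((i : ℝ) + 1) :=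
      div_lt_div_of_pos_left (by linarith) (by positivity) (by push_cast; linarith)
    simp only [a]; linarith
  have hb : ∀ i, a i ≤ β := fun i => by
    have : 0 ≤ (β - δ) / ((i : ℝ) + 1) := div_nonneg (by linarith) (by positivity)
    simp only [a]; linarith
  have h0 : a 0 = δ := by simp [a]
  have hc := rinv_cont hδ
  refine ⟨fun i => cfc (ramp (a i) (a (i + 1))) m, cfc (rinv δ) m, ⟨fun i => ?_, fun i => ?_,
    fun i => ?_, fun i => ?_⟩, ?_, ?_, ccomm hsa _ hc, fun i => ccomm hsa _ (ramp_cont _ _),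
    fun i => cfc_commute_cfc _ _ _, ?_, fun i => ?_⟩
  · exact (cfc_predicate _ _ : IsSelfAdjoint _).star_eq
  · exact cnorm W _ zero_le_one fun t _ => by
      rw [abs_of_nonneg (ramp_nonneg _ _ _)]; exact ramp_le _ _ _
  · rw [c1sub hsa _ (ramp_cont _ _)]
    exact cnorm W _ zero_le_one fun t _ => by
      have := ramp_nonneg (a i) (a (i + 1)) t
      have := ramp_le (a i) (a (i + 1)) t
      rw [abs_of_nonneg (by linarith)]; linarith
  · rw [cm _ _ (ramp_cont _ _) (ramp_cont _ _)]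
    refine cfc_congr fun t _ => ?_
    rcases le_total t (a (i + 1)) with h | h
    · simp [ramp_zero (ha (i + 1)) h]
    · simp [ramp_one (ha i) h]
  · exact (cfc_predicate _ _ : IsSelfAdjoint _).star_eq
  · have h1 : ‖cfc (rinv δ) m‖ ≤ 1 / √δ := cnorm W _ (by positivity) fun t _ => by
      rw [abs_of_nonneg (rinv_pos hδ t).le]
      exact one_div_le_one_div_of_le (Real.sqrt_pos.2 hδ) (Real.sqrt_le_sqrt (le_max_right _ _))
    have h2 : ‖cfc (rinv δ) m‖ ^ 2 ≤ (1 / √δ) ^ 2 := by gcongr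
    rw [div_pow, Real.sq_sqrt hδ.le, one_pow, le_div_iff₀ hδ] at h2
    exact h2
  · rw [cm _ _ hc hc, cmr hsa _ (by fun_prop), cm _ _ (by fun_prop) (ramp_cont _ _)]
    refine cfc_congr fun t _ => ?_
    rcases le_total t δ with h | h
    · simp [ramp_zero (ha 0) (h0 ▸ h)]
    · have := rinv_of_le' hδ h
      have e : rinv δ t * rinv δ t * t = 1 := by linarith
      simp [e]
  · rw [c1sub hsa _ (ramp_cont _ _), cml hsa _ (by have := ramp_cont (a i) (a (i + 1)); fun_prop)]
    refine cnorm W _ (by linarith) fun t ht => ?_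
    have h1 := ramp_nonneg (a i) (a (i + 1)) t
    have h2 := ramp_le (a i) (a (i + 1)) t
    rw [abs_of_nonneg (mul_nonneg ht (by linarith))]
    rcases le_total t (a (i + 1)) with h | h
    · have := hb (i + 1)
      nlinarith
    · rw [ramp_one (ha i) h]; simp; linarith

end Crest.Agent.R110
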