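import Crest.Agent.R110.L1

/-!
Row 110: the projection case and the compact case.
-/

set_option autoImplicit false

noncomputable section

namespace Crest.Agent.R110

open Filter Topology

universe u

variable {D : Type u} [CStarAlgebra D]

lemma sq_le_of_close {B : Type u} [CStarAlgebra B] (π : D →⋆ₐ[ℂ] B) {x z : D} {ε : ℝ}
    (h : ‖star x * x - star z * z‖ ≤ ε) : ‖π z‖ ^ 2 ≤ ‖π x‖ ^ 2 + ε := by
  have h1 := (pile π _).trans h
  simp only [map_sub, map_mul, map_star] at h1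
  rw [← nsq, ← nsq]
  have := norm_sub_norm_le (star (π z) * π z) (star (π x) * π x)
  rw [norm_sub_rev] at this
  linarith

lemma sq_le_of_close' {x z : D} {ε : ℝ}
    (h : ‖star x * x - star z * z‖ ≤ ε) : ‖x‖ ^ 2 ≤ ‖z‖ ^ 2 + ε := by
  rw [← nsq, ← nsq]
  have := norm_sub_norm_le (star x * x) (star z * z)
  linarith

lemma pimul_le {B : Type u} [CStarAlgebra B] (π : D →⋆ₐ[ℂ] B) {x : D} (y : D) {a : ℝ}
    (hx : ‖π x‖ ≤ a) : ‖π (x * y)‖ ≤ a * ‖π y‖ := by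
  rw [map_mul]; exact nmul_le hx le_rfl

/-- The case where one side is a projection. -/
theorem caseI {χ : D →⋆ₐ[ℂ] ℂ} (hPI : PI χ) {p : D} (hp : star p = p) (hpp : p * p = p)
    (hχp : χ p = 0) {μ : ℕ → D} (hμ : Chain μ) (hχμ : χ (μ 0) = 0) (c : D) {θ : ℝ} (hθ : 0 < θ) :
    ∃ s y : D, μ 0 * s = s ∧ star s * s = μ 5 * μ 5 ∧ p * y = y ∧ star y * y = p ∧
      ‖star s * c * y‖ ≤ θ := by
  obtain ⟨W, hW⟩ : ∃ W, W = μ 2 * c * p := ⟨_, rfl⟩
  have hWs : star W = p * star c * μ 2 := by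
    rw [hW, star_mul, star_mul, hp, hμ.sa, mul_assoc]
  obtain ⟨δ, hδ⟩ : ∃ δ, δ = θ ^ 2 / 8 := ⟨_, rfl⟩
  have hδ0 : 0 < δ := by rw [hδ]; positivity
  obtain ⟨ν, F, hν⟩ := exists_lev W hδ0 (β := θ ^ 2 / 4) (by rw [hδ]; nlinarith)
  have hpν : ∀ i, p * ν i = ν i :=
    hν.top (by rw [hWs, ← mul_assoc, ← mul_assoc, hpp])
  obtain ⟨M, hM0, hM⟩ : ∃ M : ℝ, 0 < M ∧ ∀ y : ℝ, δ * y ^ 2 ≤ ‖W‖ ^ 2 + 1 → y ≤ M := by
    refine ⟨(‖W‖ ^ 2 + 1) / δ + 1, by positivity, fun y hy => ?_⟩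
    have : y ^ 2 ≤ (‖W‖ ^ 2 + 1) / δ := by rw [le_div_iff₀ hδ0]; linarith
    nlinarith [sq_nonneg (y - 1), sq_nonneg y]
  obtain ⟨θ₂, hθ₂0, hθ₂⟩ : ∃ θ₂ : ℝ, 0 < θ₂ ∧ ‖c‖ * M * θ₂ < θ * (δ / 2) := by
    refine ⟨θ * (δ / 2) / (‖c‖ * M + 1), by positivity, ?_⟩
    rw [← mul_div_assoc, div_lt_iff₀ (by positivity)]
    nlinarith [mul_pos hθ hδ0]
  obtain ⟨ε, hε0, hε1, hε2, hε3⟩ : ∃ ε : ℝ, 0 < ε ∧ ε ≤ 1 ∧ ε ≤ δ / 2 ∧
      ‖W‖ ^ 2 * ε < θ₂ ^ 2 * (δ / 2) := by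
    refine ⟨min 1 (min (δ / 2) (θ₂ ^ 2 * (δ / 2) / (‖W‖ ^ 2 + 1))), by positivity,
      min_le_left _ _, (min_le_right _ _).trans (min_le_left _ _), ?_⟩
    refine lt_of_le_of_lt (mul_le_mul_of_nonneg_left
      ((min_le_right _ _).trans (min_le_right _ _)) (by positivity)) ?_
    rw [← mul_div_assoc, div_lt_iff₀ (by positivity)]
    nlinarith [mul_pos (pow_pos hθ₂0 2) hδ0]
  obtain ⟨r, s, h1, h2, h3⟩ := hPI (W * ν 1) (by simp [hW, hχp]) ε hε0
  obtain ⟨y₁, hy₁⟩ : ∃ y₁, y₁ = ν 1 * r * ν 3 := ⟨_, rfl⟩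
  have hpy₁ : p * y₁ = y₁ := by rw [hy₁, ← mul_assoc, ← mul_assoc, hpν]
  have hy₁M : ‖y₁‖ ≤ M := by
    have a1 := hν.lower (w := ν 1 * r) (by rw [← mul_assoc, hν.ch.mul])
    have a2 := sq_le_of_close' h1.le
    have a3 : ‖W * ν 1‖ ≤ ‖W‖ * 1 := nmul_le le_rfl (hν.ch.le 1)
    have a4 : ‖W * ν 1‖ ^ 2 ≤ (‖W‖ * 1) ^ 2 := by gcongr
    rw [← mul_assoc] at a1
    have a5 := hM ‖ν 1 * r‖ (by nlinarith)
    rw [hy₁]
    simpa using nmul_le a5 (hν.ch.le 3)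
  obtain ⟨y₂, hy₂, hy₂', hy₂''⟩ := L1 hPI (l := p) (q := star y₁ * (star W * W)) hθ₂0.le
    (Chain.const hp hpp) hp hχp (by
      intro B _ π H
      have a1 : ‖π (ν 1)‖ < 1 := by
        by_contra hc
        push Not at hc
        have b1 := H (ν 1 * s) (by rw [← mul_assoc, hpν])
        have b2 : ‖π (star y₁ * (star W * W) * (ν 1 * s))‖ ≤ 1 * ε := by
          refine (pile π _).trans ?_
          have e : star y₁ * (star W * W) * (ν 1 * s) =
              star (ν 3) * (star (W * ν 1 * r) * (W * ν 1 * s)) := by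
            rw [hy₁]; simp only [star_mul]; noncomm_ring
          rw [e]
          exact nmul_le (nstar_le (hν.ch.le 3)) h3.le
        have b3 := hν.lower' π (w := ν 1) (hν.ch.mul 0)
        have b4 := sq_le_of_close π h2.le
        have b5 : ‖π (W * ν 1 * s)‖ ≤ ‖W‖ * ‖π (ν 1 * s)‖ := by
          rw [mul_assoc]; exact pimul_le π _ (pile π _)
        have b6 : ‖π (W * ν 1 * s)‖ ^ 2 ≤ (‖W‖ * ‖π (ν 1 * s)‖) ^ 2 := by gcongr
        have b7 : (θ₂ * ‖π (ν 1 * s)‖) ^ 2 ≤ ε ^ 2 := by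
          gcongr; linarith
        have b8 : δ ≤ δ * ‖π (ν 1)‖ ^ 2 := by nlinarith [mul_le_mul hc hc zero_le_one (by linarith)]
        have b9 : δ / 2 ≤ ‖W‖ ^ 2 * ‖π (ν 1 * s)‖ ^ 2 := by nlinarith
        have b10 : θ₂ ^ 2 * (δ / 2) ≤ ‖W‖ ^ 2 * ε ^ 2 := by
          calc θ₂ ^ 2 * (δ / 2) ≤ θ₂ ^ 2 * (‖W‖ ^ 2 * ‖π (ν 1 * s)‖ ^ 2) := by gcongr
            _ = ‖W‖ ^ 2 * (θ₂ * ‖π (ν 1 * s)‖) ^ 2 := by ring
            _ ≤ _ := by gcongr
        have b11 : ‖W‖ ^ 2 * ε ^ 2 ≤ ‖W‖ ^ 2 * ε := by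
          gcongr; nlinarith
        linarith
      have a2 : π y₁ = 0 := by
        rw [hy₁, map_mul, hν.ch.die' π (show 1 < 3 by norm_num) a1, mul_zero]
      have a3 := H p hpp
      rw [map_mul, map_mul, map_star, a2, star_zero, zero_mul, zero_mul, norm_zero] at a3
      have : ‖π p‖ = 0 := by nlinarith [norm_nonneg (π p)]
      exact norm_eq_zero.1 this)
  have hpy₂ : p * y₂ = y₂ := hy₂' p hpp
  rw [hpp] at hy₂
  have hy₂1 : ‖y₂‖ ≤ 1 :=
    (norm_eq_of_sq (y := p) (by rw [hy₂, hp, hpp])).trans_le ((Chain.const hp hpp).le 0)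
  have hq : star y₂ * star c * μ 2 = star y₂ * star W := by
    rw [hWs, ← mul_assoc, ← mul_assoc, top_star hp hpy₂]
  obtain ⟨t, ht, ht', ht''⟩ := L1 hPI (l := μ 1) (q := star y₂ * star c) hθ.le
    (hμ.shift 3) (hμ.sa 1) (hμ.chi χ hχμ 1) (by
      intro B _ π H
      have a1 : ‖π (ν 3)‖ < 1 := by
        by_contra hc
        push Not at hc
        have b1 := H (μ 2 * (W * y₁)) (by rw [← mul_assoc, hμ.mul])
        have b2 : ‖π (star y₂ * star c * (μ 2 * (W * y₁)))‖ ≤ θ₂ := by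
          refine (pile π _).trans ?_
          rw [← mul_assoc, hq, ← norm_star]
          refine le_of_eq_of_le (congrArg _ ?_) hy₂''
          simp only [star_mul, star_star, mul_assoc]
        have b3 := hν.lower' π (w := ν 3) (hν.ch.mul_lt (by norm_num))
        have b4 : ‖star (W * y₁) * (W * y₁) - star (W * ν 3) * (W * ν 3)‖ ≤ ε := by
          have e : star (W * y₁) * (W * y₁) - star (W * ν 3) * (W * ν 3) =
              star (ν 3) * (star (W * ν 1 * r) * (W * ν 1 * r) - star (W * ν 1) * (W * ν 1)) *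
                ν 3 := by
            rw [hy₁]
            conv_lhs => rw [← show W * ν 1 * ν 3 = W * ν 3 by
              rw [mul_assoc, hν.ch.mul_lt (show 1 < 3 by norm_num)]]
            simp only [star_mul]; noncomm_ring
          rw [e]
          simpa using nmul_le (nmul_le (nstar_le (hν.ch.le 3)) h1.le) (hν.ch.le 3)
        have b5 := sq_le_of_close π b4
        have b6 : ‖π (W * y₁)‖ ^ 2 ≤ ‖c‖ * M * ‖π (μ 2 * (W * y₁))‖ := by
          have e : star (W * y₁) * (W * y₁) = star (c * y₁) * (μ 2 * (W * y₁)) := by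
            rw [star_mul, star_mul, hWs, ← mul_assoc (star y₁), ← mul_assoc (star y₁),
              top_star hp hpy₁]
            simp only [mul_assoc]
          rw [← nsq, ← map_star, ← map_mul, e]
          exact pimul_le π _ ((pile π _).trans (nstar_le (nmul_le le_rfl hy₁M)))
        have b8 : δ ≤ δ * ‖π (ν 3)‖ ^ 2 := by nlinarith [mul_le_mul hc hc zero_le_one (by linarith)]
        have b9 : δ / 2 ≤ ‖c‖ * M * ‖π (μ 2 * (W * y₁))‖ := by linarith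
        have b10 : θ * (δ / 2) ≤ ‖c‖ * M * θ₂ := by
          calc θ * (δ / 2) ≤ θ * (‖c‖ * M * ‖π (μ 2 * (W * y₁))‖) := by gcongr
            _ = ‖c‖ * M * (θ * ‖π (μ 2 * (W * y₁))‖) := by ring
            _ ≤ _ := by gcongr; linarith
        linarith
      have a2 := hν.small π (hν.ch.die' π (show 3 < 4 by norm_num) a1)
      have a3 : ‖π W‖ ≤ θ / 2 := (abs_le_of_sq_le_sq' (by nlinarith) (by positivity)).2
      have a4 := H (μ 3) (hμ.mul_lt (by norm_num))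
      have a5 : ‖π (star y₂ * star c * μ 3)‖ ≤ 1 * (θ / 2) * ‖π (μ 3)‖ := by
        conv_lhs => rw [← hμ.mul 2, ← mul_assoc, hq]
        refine pimul_le π _ ?_
        rw [map_mul, map_star π W]
        exact nmul_le ((pile π _).trans (nstar_le hy₂1)) (nstar_le a3)
      have : ‖π (μ 3)‖ = 0 := by nlinarith [norm_nonneg (π (μ 3))]
      exact norm_eq_zero.1 this)
  refine ⟨t, y₂, ht' _ (hμ.mul 0), ht, hpy₂, hy₂, ?_⟩
  rw [← norm_star]
  refine le_of_eq_of_le (congrArg _ ?_) ht''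
  simp only [star_mul, star_star, mul_assoc]

/-- The case where the ideal generated by the chain `κ` is compact. -/
theorem caseB {χ : D →⋆ₐ[ℂ] ℂ} (hPI : PI χ) {κ : ℕ → D} (hκ : Chain κ) (hχκ : χ (κ 0) = 0)
    (hcov : Cov (κ 4) (κ 0)) {μ : ℕ → D} (hμ : Chain μ) (hχμ : χ (μ 0) = 0) (c : D) {θ : ℝ}
    (hθ : 0 < θ) :
    ∃ s t : D, μ 0 * s = s ∧ star s * s = μ 5 * μ 5 ∧ κ 1 * t = t ∧ star t * t = κ 3 * κ 3 ∧
      ‖star s * c * t‖ ≤ θ := by
  have h4 := hκ.chi χ hχκ 4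
  obtain ⟨a, ha⟩ := cmp hPI h4 hcov (1 / 8) (by norm_num)
  obtain ⟨r, s, h1, h2, h3⟩ := hPI (κ 4) h4 (1 / (8 * (‖a‖ ^ 2 + 1))) (by positivity)
  have hsm : ∀ v : D, ‖v‖ < 1 / (8 * (‖a‖ ^ 2 + 1)) → ‖star a * v * a‖ ≤ 1 / 8 := fun v hv => by
    refine (nconj _ _).trans ?_
    rw [lt_div_iff₀ (by positivity)] at hv
    nlinarith [norm_nonneg v]
  have hx : ∀ r : D, ‖star (κ 4 * r) * (κ 4 * r) - star (κ 4) * κ 4‖ < 1 / (8 * (‖a‖ ^ 2 + 1)) →
      ‖star (κ 4 * r * a) * (κ 4 * r * a) - star (κ 0) * κ 0‖ ≤ 1 / 4 := fun r hr => by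
    have e : star (κ 4 * r * a) * (κ 4 * r * a) - star (κ 0) * κ 0 =
        star a * (star (κ 4 * r) * (κ 4 * r) - star (κ 4) * κ 4) * a +
          (star (κ 4 * a) * (κ 4 * a) - star (κ 0) * κ 0) := by
      simp only [star_mul]; noncomm_ring
    rw [e]
    exact (norm_add_le_of_le (hsm _ hr) ha.le).trans (by norm_num)
  have hx12 : ‖star (κ 4 * r * a) * (κ 4 * s * a)‖ ≤ 1 / 8 := by
    convert hsm _ h3 using 2
    simp only [star_mul, mul_assoc]
  obtain ⟨φ, hφ, hφφ⟩ := exists_sqrt_one_sub (hκ.le' 2)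
  have hw : star (1 - κ 2) = 1 - κ 2 := by rw [star_sub, star_one, hκ.sa]
  have h12 : κ 1 * κ 2 = κ 2 := hκ.mul 1
  have h21 : κ 2 * κ 1 = κ 2 := hκ.mul_gt (by norm_num)
  have hφ0 : φ * (1 - κ 1) = 0 := by
    refine eq_zero_of_sq ?_
    rw [star_mul, hφ.star_eq, star_sub, star_one, hκ.sa]
    calc (1 - κ 1) * φ * (φ * (1 - κ 1)) = (1 - κ 1) * (φ * φ) * (1 - κ 1) := by noncomm_ring
      _ = (κ 2 - κ 1 * κ 2) * (1 + (1 - κ 2)) * (1 - κ 1) := by rw [hφφ, hw]; noncomm_ring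
      _ = 0 := by rw [h12]; simp
  have hφ1 : κ 1 * φ = φ := by
    have := congrArg star hφ0
    rw [star_mul, hφ.star_eq, star_sub, star_one, hκ.sa, star_zero, sub_mul, one_mul,
      sub_eq_zero] at this
    exact this.symm
  have hφn : ‖φ‖ ≤ 1 := (norm_le_of_add (q := 1) (y := 1 - κ 2) (by
    rw [hφ.star_eq, hφφ]; simp)).trans n1
  obtain ⟨x, hx1, hxx⟩ := exact ((hx r h1).trans (by norm_num)) (hκ.sa 1)
    (by rw [hκ.sa, mul_assoc, hκ.mul, hκ.mul]) hφ1 hφn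
  have hx3 : κ 3 * x = x := by
    refine (top_closed (κ 3)).closure_subset_iff.2 ?_ hx1
    rintro _ ⟨d, -, rfl⟩
    rw [Set.mem_ofPred_eq]
    simp only [← mul_assoc, hκ.mul 3]
  have hx2 : ‖star x * (κ 4 * s * a)‖ ≤ 1 / 4 := by
    refine closure_pair (T := {κ 4 * s * a}) ?_ hx1 (subset_closure rfl)
    rintro _ ⟨d, hd, rfl⟩ _ rfl
    rw [star_mul, star_mul, mul_assoc, mul_assoc]
    exact (nmul_le (nstar_le hd) (nmul_le (nstar_le (hκ.le 1)) hx12)).trans (by norm_num)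
  have hwx : (1 - κ 2) * x = 0 := by
    rw [sub_mul, one_mul, hκ.top (show 2 < 3 by norm_num) hx3, sub_self]
  have hxw : star x * (1 - κ 2) = 0 := by
    have := congrArg star hwx
    rwa [star_mul, hw, star_zero] at this
  have hx0 : x * (1 - κ 1) = 0 := by
    refine eq_zero_of_sq ?_
    rw [star_mul, mul_assoc, ← mul_assoc (star x), hxx, mul_assoc, hφ0, mul_zero, mul_zero]
  obtain ⟨v, hv⟩ : ∃ v, v = x + (1 - κ 2) := ⟨_, rfl⟩
  have hvv : star v * v = 1 := by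
    rw [hv, star_add, add_mul, mul_add, mul_add, hxx, hxw, hφ.star_eq, hφφ, hw, hwx]
    abel
  have hv1 : ‖v‖ ≤ 1 := (norm_eq_of_sq (y := 1) (by simpa using hvv)).trans_le n1
  have hk : (1 - κ 1) * (1 - κ 2) = 1 - κ 1 := by
    rw [mul_sub, mul_one, sub_mul, one_mul, h12, sub_self, sub_zero]
  have hk' : (1 - κ 2) * (1 - κ 1) = 1 - κ 1 := by
    rw [sub_mul, one_mul, mul_sub, mul_one, h21, sub_self, sub_zero]
  have hv2 : (1 - κ 1) * v = 1 - κ 1 := by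
    rw [hv, mul_add, hk, sub_mul, one_mul, hκ.top (show 1 < 3 by norm_num) hx3, sub_self,
      zero_add]
  have hv3 : (1 - κ 1) * star v = 1 - κ 1 := by
    have h : v * (1 - κ 1) = 1 - κ 1 := by rw [hv, add_mul, hx0, hk', zero_add]
    have := congrArg star h
    rwa [star_mul, star_sub, star_one, hκ.sa] at this
  obtain ⟨p, hp⟩ : ∃ p, p = 1 - v * star v := ⟨_, rfl⟩
  have hps : star p = p := by rw [hp, star_sub, star_one, star_mul, star_star]
  have hpp : p * p = p := by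
    rw [hp]
    calc (1 - v * star v) * (1 - v * star v)
        = 1 - v * star v - v * star v + v * (star v * v) * star v := by noncomm_ring
      _ = _ := by rw [hvv, mul_one]; abel
  have hp1 : κ 1 * p = p := by
    have : (1 - κ 1) * p = 0 := by rw [hp, mul_sub, mul_one, ← mul_assoc, hv2, hv3, sub_self]
    rw [sub_mul, one_mul, sub_eq_zero] at this
    exact this.symm
  have hχp : χ p = 0 := chi_top χ (hκ.chi χ hχκ 1) hp1
  have hc : Cov p (κ 1) := by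
    intro B _ π hπ
    refine hκ.die' π (show 0 < 1 by norm_num) ?_
    have a1 := sq_le_of_close π (hx s h2)
    have a2 : ‖π (κ 4 * s * a)‖ ≤ 1 * (1 / 4) := by
      have e : κ 4 * s * a = p * (κ 4 * s * a) + v * (star x * (κ 4 * s * a)) := by
        have e1 : (1 - κ 2) * (κ 4 * s * a) = 0 := by
          rw [sub_mul, one_mul, ← mul_assoc, ← mul_assoc, hκ.mul_lt (show 2 < 4 by norm_num),
            sub_self]
        have e2 : star v * (κ 4 * s * a) = star x * (κ 4 * s * a) := by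
          rw [hv, star_add, hw, add_mul, e1, add_zero]
        rw [← e2, hp]; noncomm_ring
      rw [e, map_add, map_mul π p, hπ, zero_mul, zero_add]
      exact (pile π _).trans (nmul_le hv1 hx2)
    nlinarith [norm_nonneg (π (κ 0)), norm_nonneg (π (κ 4 * s * a))]
  obtain ⟨σ, y, hσ1, hσ2, hy1, hy2, hσy⟩ := caseI hPI hps hpp hχp hμ hχμ c hθ
  obtain ⟨z, hz, hz'⟩ := cmpx' hPI (hκ.shift 1) hχp hc (φ := κ 3) (hκ.mul 2) (hκ.le 3)
  have hz1 : ‖z‖ ≤ 1 := (norm_eq_of_sq hz).trans_le (hκ.le 3)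
  refine ⟨σ, y * z, hσ1, hσ2, ?_, ?_, ?_⟩
  · rw [← hy1, ← mul_assoc, ← mul_assoc, hp1]
  · rw [star_mul, mul_assoc, ← mul_assoc (star y), hy2, hz' p hpp, hz, hκ.sa]
  · rw [← mul_assoc]
    simpa using nmul_le hσy hz1

end Crest.Agent.R110
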