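import Crest.Agent.R110.Main

/-!
Row 110: diagonalisation in a unital algebra with a character.
-/

set_option autoImplicit false

noncomputable section

namespace Crest.Agent.R110

open Filter Topology

universe u

variable {D : Type u} [CStarAlgebra D]

lemma side (x : D) {ε : ℝ} (hε : 0 < ε) :
    ∃ (α : ℕ → D) (G q : D), Chain α ∧ star G = G ∧ α 0 = G * G * (star x * x) * α 0 ∧
      q = G * (star x * x) ∧ ∀ (s : D) (n : ℕ) (η : ℝ), α 0 * s = s →
        ‖star s * s - α n * α n‖ ≤ η →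
        ‖star (G * s * q) * (star x * x) * (G * s * q) - star x * x‖ ≤ η * ‖q‖ ^ 2 + 2 * ε := by
  obtain ⟨α, G, h1, h2, -, h4, h5, h6, h7, h8⟩ := lev0 x (δ := ε / 2) (β := ε) (by positivity)
    (by linarith)
  obtain ⟨a, ha⟩ : ∃ a, a = star x * x := ⟨_, rfl⟩
  have has : star a = a := by rw [ha, star_mul, star_star]
  rw [← ha]
  simp only [← ha] at h4 h5 h7 h8
  refine ⟨α, G, G * a, h1, h2, h7.symm, rfl, fun s n η hs hη => ?_⟩
  have e0 : G * a * G * α 0 = α 0 := by rw [mul_assoc G a, ← h4.eq, ← mul_assoc, h7]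
  have e1 : G * a * G * s = s := by rw [← hs, ← mul_assoc, e0]
  have e2 : G * a * G * α n = α n := h1.top_of e0 n
  have e3 : star (G * a) * (α n * α n) * (G * a) = a * α n * α n := by
    rw [star_mul, has, h2]
    calc a * G * (α n * α n) * (G * a) = a * (G * α n) * (α n * (G * a)) := by noncomm_ring
      _ = a * (α n * G) * (a * G * α n) := by
        rw [(h6 n).eq, ((h6 n).symm.mul_right (h5 n)).eq, h4.eq]
      _ = a * α n * (G * a * G * α n) := by noncomm_ring
      _ = _ := by rw [e2]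
  have e : star (G * s * (G * a)) * a * (G * s * (G * a)) - a =
      star (G * a) * (star s * s - α n * α n) * (G * a) -
        (a * (1 - α n) + a * (1 - α n) * α n) := by
    rw [mul_sub (star (G * a)), sub_mul, e3, star_mul (G * s), star_mul G s, h2]
    calc star (G * a) * (star s * G) * a * (G * s * (G * a)) - a
        = star (G * a) * (star s * (G * a * G * s)) * (G * a) - a := by noncomm_ring
      _ = _ := by rw [e1]; noncomm_ring
  rw [e]
  have b1 := (nconj (G * a) _).trans (mul_le_mul_of_nonneg_right hη (by positivity))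
  have b2 := nmul_le (h8 n) (h1.le n)
  refine (norm_sub_le _ _).trans (add_le_add b1 ((norm_add_le_of_le (h8 n) b2).trans ?_))
  linarith

theorem final {χ : D →⋆ₐ[ℂ] ℂ} (hPI : PI χ) {x y : D} (hx : χ x = 0) (hy : χ y = 0) (c : D)
    {ε : ℝ} (hε : 0 < ε) :
    ∃ s t : D, χ s = 0 ∧ χ t = 0 ∧ ‖star s * (star x * x) * s - star x * x‖ < ε ∧
      ‖star t * (star y * y) * t - star y * y‖ < ε ∧ ‖star s * c * t‖ < ε := by
  obtain ⟨α, G, q, hα, hG, h1, h2, h3⟩ := side x (ε := ε / 4) (by positivity)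
  obtain ⟨β, G', q', hβ, hG', h1', h2', h3'⟩ := side y (ε := ε / 4) (by positivity)
  obtain ⟨s, t, n, a1, a2, a3, a4, a5⟩ := main hPI hα hβ (by rw [h1]; simp [hx])
    (by rw [h1']; simp [hy]) (G * c * G') (θ := ε / (‖q‖ * ‖q'‖ + 1))
    (η := ε / 4 / (‖q‖ ^ 2 + 1)) (by positivity) (by positivity)
  refine ⟨G * s * q, G' * t * q', by simp [h2, hx], by simp [h2', hy], ?_, ?_, ?_⟩
  · refine (h3 s n _ a1 a2).trans_lt ?_
    have : ε / 4 / (‖q‖ ^ 2 + 1) * ‖q‖ ^ 2 ≤ ε / 4 := by
      rw [div_mul_eq_mul_div, div_le_iff₀ (by positivity)]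
      nlinarith
    linarith
  · refine (h3' t 6 0 a3 (by rw [a4]; simp)).trans_lt ?_
    linarith
  · have e : star (G * s * q) * c * (G' * t * q') =
        star q * (star s * (G * c * G') * t) * q' := by
      simp only [star_mul, hG]; noncomm_ring
    rw [e]
    refine (nmul_le (nmul_le (nstar_le le_rfl) a5) le_rfl).trans_lt ?_
    rw [← mul_div_assoc, div_mul_eq_mul_div, div_lt_iff₀ (by positivity)]
    nlinarith

/-- The character of the unitisation. -/
def uchar (C : Type u) [NonUnitalCStarAlgebra C] : Unitization ℂ C →⋆ₐ[ℂ] ℂ :=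
  { Unitization.fstHom ℂ C with map_star' := fun x => Unitization.fst_star x }

lemma uchar_inr {C : Type u} [NonUnitalCStarAlgebra C] (x : C) :
    uchar C (x : Unitization ℂ C) = 0 := Unitization.fst_inr ℂ x

lemma uchar_eq_zero {C : Type u} [NonUnitalCStarAlgebra C] {x : Unitization ℂ C}
    (h : uchar C x = 0) : ∃ y : C, x = y := by
  refine ⟨x.snd, ?_⟩
  have h1 : x.fst = 0 := h
  conv_lhs => rw [← Unitization.inl_fst_add_inr_snd_eq x, h1]
  simp

theorem nonunital {C : Type u} [NonUnitalCStarAlgebra C]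
    (hC : ∀ x : C, ∀ ε : ℝ, 0 < ε → ∃ r s : C, ‖star r * (star x * x) * r - star x * x‖ < ε ∧
      ‖star s * (star x * x) * s - star x * x‖ < ε ∧ ‖star r * (star x * x) * s‖ < ε)
    (x y c : C) {ε : ℝ} (hε : 0 < ε) :
    ∃ s t : C, ‖star s * (star x * x) * s - star x * x‖ < ε ∧
      ‖star t * (star y * y) * t - star y * y‖ < ε ∧ ‖star s * c * t‖ < ε := by
  have hPI : PI (uchar C) := by
    intro z hz δ hδ
    obtain ⟨z, rfl⟩ := uchar_eq_zero hz
    obtain ⟨r, s, h1, h2, h3⟩ := hC z δ hδ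
    rw [← Unitization.norm_inr (𝕜 := ℂ)] at h1 h2 h3
    refine ⟨r, s, ?_, ?_, ?_⟩
    · refine lt_of_eq_of_lt (congrArg _ ?_) h1
      simp only [Unitization.inr_sub, Unitization.inr_mul, Unitization.inr_star, star_mul,
        mul_assoc]
    · refine lt_of_eq_of_lt (congrArg _ ?_) h2
      simp only [Unitization.inr_sub, Unitization.inr_mul, Unitization.inr_star, star_mul,
        mul_assoc]
    · refine lt_of_eq_of_lt (congrArg _ ?_) h3
      simp only [Unitization.inr_mul, Unitization.inr_star, star_mul, mul_assoc]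
  obtain ⟨s, t, hs, ht, h1, h2, h3⟩ := final hPI (uchar_inr x) (uchar_inr y)
    (c : Unitization ℂ C) hε
  obtain ⟨s, rfl⟩ := uchar_eq_zero hs
  obtain ⟨t, rfl⟩ := uchar_eq_zero ht
  refine ⟨s, t, ?_, ?_, ?_⟩ <;> rw [← Unitization.norm_inr (𝕜 := ℂ)]
  · simpa only [Unitization.inr_sub, Unitization.inr_mul, Unitization.inr_star] using h1
  · simpa only [Unitization.inr_sub, Unitization.inr_mul, Unitization.inr_star] using h2
  · simpa only [Unitization.inr_mul, Unitization.inr_star] using h3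

end Crest.Agent.R110
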