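import Crest.Agent.R110.Case

/-!
Row 110: the case `a = b` and the inclusion case.
-/

set_option autoImplicit false

noncomputable section

namespace Crest.Agent.R110

open Filter Topology

universe u

variable {D : Type u} [CStarAlgebra D]

lemma le_of_sq {x a : ℝ} (ha : 0 ≤ a) (h : x ^ 2 ≤ a ^ 2) : x ≤ a :=
  (abs_le_of_sq_le_sq' h ha).2

lemma picont {B : Type u} [CStarAlgebra B] (π : D →⋆ₐ[ℂ] B) : Continuous π :=
  (AddMonoidHomClass.lipschitz_of_bound π 1 fun x => by simpa using pile π x).continuous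

/-- The case `a = b`. -/
theorem bothF {χ : D →⋆ₐ[ℂ] ℂ} (hPI : PI χ) {κ : ℕ → D} (hκ : Chain κ) (hχκ : χ (κ 0) = 0)
    (c : D) {θ : ℝ} (hθ : 0 < θ) :
    ∃ s t : D, κ 0 * s = s ∧ κ 0 * t = t ∧ star s * s = κ 17 * κ 17 ∧
      star t * t = κ 17 * κ 17 ∧ ‖star s * c * t‖ ≤ θ := by
  have hχ := hκ.chi χ hχκ
  obtain ⟨ν, F, hν⟩ := exists_lev (κ 7 * c * κ 2) (δ := θ ^ 2 / 32) (β := (θ / 4) ^ 2)
    (by positivity) (by nlinarith)
  obtain ⟨t₁, ht₁⟩ : ∃ t₁, t₁ = κ 2 * (1 - ν 0) := ⟨_, rfl⟩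
  have ht₁1 : κ 1 * t₁ = t₁ := by rw [ht₁, ← mul_assoc, hκ.mul]
  have ht₁2 : ‖κ 7 * c * t₁‖ ≤ θ / 4 := by
    refine le_of_sq (by positivity) ?_
    rw [← nsq, ht₁, ← mul_assoc (κ 7 * c), star_mul, mul_assoc (star (1 - ν 0)),
      ← mul_assoc (star (κ 7 * c * κ 2))]
    simpa using nmul_le (nstar_le (hν.ch.le' 0)) (hν.low 0)
  obtain ⟨A, _, ρ, hsurj, hker, hlift, hchi⟩ := exists_quot
    {z : D | χ z = 0 ∧ ∀ (B : Type u) [CStarAlgebra B] (π : D →⋆ₐ[ℂ] B),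
      ‖π t₁‖ ≤ 1 / 4 → π z = 0}
    ⟨map_zero _, fun B _ π _ => map_zero _⟩
    (fun x hx y hy => ⟨by rw [map_add, hx.1, hy.1, add_zero],
      fun B _ π h => by rw [map_add, hx.2 B π h, hy.2 B π h, add_zero]⟩)
    (fun c x hx => ⟨by rw [map_mul, hx.1, mul_zero],
      fun B _ π h => by rw [map_mul, hx.2 B π h, mul_zero]⟩)
    (fun c x hx => ⟨by rw [map_mul, hx.1, zero_mul],
      fun B _ π h => by rw [map_mul, hx.2 B π h, zero_mul]⟩)
    (fun x hx => ⟨by rw [map_star, hx.1, star_zero],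
      fun B _ π h => by rw [map_star, hx.2 B π h, star_zero]⟩)
    (by
      refine isClosed_of_closure_subset fun z hz => ⟨?_, fun B _ π h => ?_⟩
      · exact (isClosed_eq (map_continuous χ) continuous_const).closure_subset_iff.2
          (fun x hx => hx.1) hz
      · exact (isClosed_eq (picont π) continuous_const).closure_subset_iff.2
          (fun x hx => hx.2 B π h) hz)
  obtain ⟨χ', hχ'⟩ := hchi χ fun x hx => hx.1
  have hPI' : PI χ' := hPI.quot ρ hsurj hχ'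
  have htr : ∀ (B : Type u) [CStarAlgebra B] (π : D →⋆ₐ[ℂ] B), ‖π t₁‖ ≤ 1 / 4 →
      ∀ z, ‖π z‖ ≤ ‖ρ z‖ := by
    intro B _ π h z
    refine le_of_forall_pos_le_add fun ε hε => ?_
    obtain ⟨r, hr, hr'⟩ := hlift (ρ z) ε hε
    have h1 := ((hker (r - z)).1 (by rw [map_sub, hr, sub_self])).2 B π h
    rw [map_sub, sub_eq_zero] at h1
    rw [← h1]
    exact (pile π r).trans hr'.le
  have hρt : ‖ρ t₁‖ ≤ 1 / 2 := by
    obtain ⟨ν', F', hν'⟩ := exists_lev t₁ (δ := 1 / 8) (β := (1 / 2) ^ 2) (by norm_num)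
      (by norm_num)
    refine le_of_sq (by norm_num) (hν'.small ρ (i := 0) ((hker _).2
      ⟨hν'.chi χ (chi_top χ (hχ 1) ht₁1) 0, fun B _ π h => hν'.die π ?_⟩))
    nlinarith [norm_nonneg (π t₁)]
  have hcov : Cov (ρ (κ 7)) (ρ (κ 3)) := by
    intro B _ π hπ
    have a1 : (π.comp ρ) (ν 0) = 0 := hν.die (π.comp ρ) (by
      rw [map_mul, map_mul, StarAlgHom.comp_apply, hπ, zero_mul, zero_mul, norm_zero,
        zero_pow two_ne_zero]
      positivity)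
    refine hκ.die' (π.comp ρ) (show 2 < 3 by norm_num) ?_
    have a2 : (π.comp ρ) t₁ = (π.comp ρ) (κ 2) := by
      rw [ht₁, map_mul, map_sub, a1, map_one, sub_zero, mul_one]
    rw [← a2, StarAlgHom.comp_apply]
    linarith [pile π (ρ t₁)]
  obtain ⟨s', t', hs1, hs2, ht1, ht2, hst⟩ := caseB hPI' ((hκ.map ρ).shift 3)
    (by rw [hχ', hχ]) hcov ((hκ.map ρ).shift 8) (by rw [hχ', hχ]) (ρ c)
    (θ := θ / 64) (by positivity)
  simp only [Nat.reduceAdd] at hs1 hs2 ht1 ht2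
  obtain ⟨s₀, hs₀, hs₀'⟩ := hlift s' 1 one_pos
  obtain ⟨t₀, ht₀⟩ := hsurj t'
  have hs'1 : ‖s'‖ ≤ 1 := (norm_eq_of_sq (y := ρ (κ 13)) (by
    rw [hs2, (hκ.map ρ).sa])).trans_le ((hκ.map ρ).le 13)
  obtain ⟨σ, hσ⟩ : ∃ σ, σ = κ 8 * s₀ := ⟨_, rfl⟩
  obtain ⟨τ, hτ⟩ : ∃ τ, τ = κ 4 * t₀ := ⟨_, rfl⟩
  have hσρ : ρ σ = s' := by rw [hσ, map_mul, hs₀, hs1]
  have hτρ : ρ τ = t' := by rw [hτ, map_mul, ht₀, ht1]
  have hσ2 : ‖σ‖ ≤ 2 := by
    rw [hσ]; exact (nmul_le (hκ.le 8) hs₀'.le).trans (by linarith)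
  have hσ7 : κ 7 * σ = σ := by rw [hσ, ← mul_assoc, hκ.mul]
  have hτ1 : κ 1 * τ = τ := by rw [hτ, ← mul_assoc, hκ.mul_lt (by norm_num)]
  obtain ⟨y, hy⟩ : ∃ y, y = κ 14 * (1 - star σ * σ) := ⟨_, rfl⟩
  have hy7 : κ 7 * y = y := by rw [hy, ← mul_assoc, hκ.mul_lt (by norm_num)]
  have hyρ : ρ y = 0 := by
    rw [hy, map_mul, map_sub, map_mul, map_star, hσρ, hs2, map_one, mul_sub, mul_one,
      ← mul_assoc, ← map_mul, ← map_mul, hκ.mul_gt (by norm_num), hκ.mul_gt (by norm_num),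
      sub_self]
  obtain ⟨q, hq⟩ := exists_sqrt_add (star σ) (star y)
  obtain ⟨ν', F', hν'⟩ := exists_lev q (δ := 1 / 16) (β := 1 / 8) (by norm_num) (by norm_num)
  have h7 : ∀ i, κ 7 * ν' i = ν' i := by
    refine hν'.ch.top_of ?_
    rw [← hν'.inv', hq, star_star, star_star, ← mul_assoc, ← mul_assoc, mul_add, ← mul_assoc,
      ← mul_assoc, hσ7, hy7]
  have hc15 : Cov (ν' 1) (κ 15) := by
    intro B _ π hπ
    refine hκ.die' π (show 14 < 15 by norm_num) ?_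
    have a1 := hν'.small π hπ
    have a2 := congrArg π hq
    simp only [map_add, map_mul, map_star] at a2
    have a3 := norm_le_of_add a2
    have a4 := norm_le_of_add (a2.trans (add_comm _ _))
    rw [norm_star] at a3 a4
    have e : κ 14 = y + κ 14 * (star σ * σ) := by rw [hy]; noncomm_ring
    have a5 : ‖π (κ 14)‖ ≤ ‖π y‖ + 1 * ‖π σ‖ ^ 2 := by
      rw [e, map_add]
      refine norm_add_le_of_le le_rfl ?_
      rw [← nsq, ← map_star, ← map_mul]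
      exact pimul_le π _ ((pile π _).trans (hκ.le 14))
    have a6 : ‖π q‖ ≤ 1 / 2 := le_of_sq (by norm_num) (by linarith)
    have a7 : ‖π σ‖ ^ 2 ≤ ‖π q‖ ^ 2 := by gcongr
    linarith
  obtain ⟨s, hss, hs⟩ := cmpx' hPI (hκ.shift 15) (chi_top χ (hχ 7) (h7 1)) hc15 (φ := κ 17)
    (hκ.mul 16) (hκ.le 17)
  have hs7 : κ 7 * s = s := hs _ (h7 1)
  have hs1' : ‖s‖ ≤ 1 := (norm_eq_of_sq hss).trans_le (hκ.le 17)
  have hsd : s = σ * (star σ * F' * s) + y * (star y * F' * s) := by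
    have a1 : ν' 0 * s = s := hs _ (hν'.ch.mul 0)
    have a2 : star q * q * F' * s = s := by rw [← a1, ← mul_assoc, hν'.inv']
    rw [hq, star_star, star_star] at a2
    calc s = _ := a2.symm
      _ = _ := by noncomm_ring
  have hd : ‖star σ * F' * s‖ ≤ 2 * 16 * 1 :=
    nmul_le (nmul_le (nstar_le hσ2) (by linarith [hν'.le])) hs1'
  obtain ⟨t, htt, ht, hqt⟩ := L1 hPI (l := κ 1) (q := star s * c) hθ.le (hκ.shift 7)
    (hκ.sa 1) (hχ 1) (by
      intro B _ π H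
      have a1 : ‖π t₁‖ ≤ 1 / 4 := by
        have b1 := H t₁ ht₁1
        have b2 : ‖π (star s * c * t₁)‖ ≤ 1 * (θ / 4) := by
          refine (pile π _).trans ?_
          rw [← top_star (hκ.sa 7) hs7, mul_assoc, mul_assoc, ← mul_assoc (κ 7)]
          exact nmul_le (nstar_le hs1') ht₁2
        nlinarith
      have a2 : π y = 0 := norm_le_zero_iff.1 ((htr B π a1 y).trans (by rw [hyρ, norm_zero]))
      have a3 : ‖π (star σ * c * τ)‖ ≤ θ / 64 := by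
        refine (htr B π a1 _).trans ?_
        rwa [map_mul, map_mul, map_star, hσρ, hτρ]
      have a4 : ‖π (star s * c * τ)‖ ≤ 2 * 16 * 1 * (θ / 64) := by
        have e : star s * c * τ = star (star σ * F' * s) * (star σ * c * τ) +
            star (star y * F' * s) * star y * c * τ := by
          conv_lhs => rw [hsd]
          rw [star_add, star_mul σ, star_mul y]; noncomm_ring
        rw [e, map_add, map_mul π _ τ, map_mul π _ c, map_mul π _ (star y), map_star π y, a2,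
          star_zero, mul_zero, zero_mul, zero_mul, add_zero, map_mul]
        exact nmul_le ((pile π _).trans (nstar_le hd)) a3
      have a5 := H τ hτ1
      have a6 : ‖π τ‖ ≤ 1 / 2 := by nlinarith
      have a7 : π (star τ * τ - star (κ 6) * κ 6) = 0 := by
        refine norm_le_zero_iff.1 ((htr B π a1 _).trans ?_)
        rw [map_sub, map_mul, map_star, hτρ, ht2, hκ.sa, map_mul, sub_self, norm_zero]
      rw [map_sub, map_mul, map_mul, map_star, map_star, sub_eq_zero] at a7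
      refine hκ.die' π (show 6 < 0 + 7 by norm_num) ?_
      rw [← norm_eq_of_sq a7]; linarith)
  simp only [Nat.reduceAdd] at htt
  refine ⟨s, t * κ 17, hκ.top (by norm_num) hs7, ?_, by rw [hss, hκ.sa], ?_, ?_⟩
  · rw [← mul_assoc, ht _ (hκ.mul 0)]
  · rw [star_mul, mul_assoc, ← mul_assoc (star t), htt, hκ.sa, mul_assoc,
      hκ.mul_lt (by norm_num), hκ.mul_lt (by norm_num)]
  · rw [← mul_assoc]
    simpa using nmul_le hqt (hκ.le 17)

/-- The inclusion step. -/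
theorem inc {χ : D →⋆ₐ[ℂ] ℂ} (hPI : PI χ) {α β : ℕ → D} (hα : Chain α) (hβ : Chain β)
    (hχα : χ (α 0) = 0) (hχβ : χ (β 0) = 0) {z : D} (hz : χ z = 0) (hzα : Cov (α 2) z)
    (hzβ : Cov (β 2) z) (c : D) {ε θ : ℝ} (hε : 0 < ε) (hθ : 0 < θ) :
    ∃ w τ : D, α 0 * w = w ∧ star w * w = α 4 * α 4 ∧ β 1 * τ = τ ∧ ‖τ‖ ≤ 1 ∧ Cov (β 2) τ ∧
      (∀ (B : Type u) [CStarAlgebra B] (π : D →⋆ₐ[ℂ] B), ‖π τ‖ < 1 → ‖π z‖ ^ 2 ≤ ε) ∧
      ‖star w * c * τ‖ ≤ θ := by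
  obtain ⟨ν, F, hν⟩ := exists_lev z (δ := ε / 2) (β := ε) (by positivity) (by linarith)
  have h0 : ∀ x, Cov x z → Cov x (ν 0) := fun x hx B _ π hπ =>
    hν.die π (by rw [hx B π hπ, norm_zero, zero_pow two_ne_zero]; positivity)
  obtain ⟨σ₀, hσ₀, hσ₀'⟩ := cmpx' hPI hν.ch (hα.chi χ hχα 2) (h0 _ hzα) (hν.ch.mul 1) (hν.ch.le 2)
  obtain ⟨τ₀, hτ₀, hτ₀'⟩ := cmpx' hPI hν.ch (hβ.chi χ hχβ 2) (h0 _ hzβ) (hν.ch.mul 1) (hν.ch.le 2)
  obtain ⟨s, t, hs, ht, hss, htt, hst⟩ := bothF hPI (hν.ch.shift 2) (hν.chi χ hz _)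
    (star σ₀ * c * τ₀) (θ := θ / 2) (by positivity)
  simp only [Nat.reduceAdd] at hs ht hss htt
  have hk : ∀ a b : D, star a * a = star (ν 2) * ν 2 → ν 2 * b = b →
      star (a * b) * (a * b) = star b * b := fun a b ha hb => by
    rw [star_mul, mul_assoc, ← mul_assoc (star a), ha, hν.ch.sa, mul_assoc, hb, hb]
  have hσ : star (σ₀ * s) * (σ₀ * s) = star (ν 19) * ν 19 := by
    rw [hk _ _ hσ₀ hs, hss, hν.ch.sa]
  have hτ : star (τ₀ * t * ν 20) * (τ₀ * t * ν 20) = star (ν 20) * ν 20 := by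
    rw [star_mul, mul_assoc, ← mul_assoc (star (τ₀ * t)), hk _ _ hτ₀ ht, htt, mul_assoc,
      hν.ch.mul, hν.ch.mul]
  have hτπ : ∀ (B : Type u) [CStarAlgebra B] (π : D →⋆ₐ[ℂ] B),
      ‖π (τ₀ * t * ν 20)‖ = ‖π (ν 20)‖ := fun B _ π =>
    norm_eq_of_sq (by rw [← map_star, ← map_mul, hτ, map_mul, map_star])
  obtain ⟨w, hww, hw, hqw⟩ := L1 hPI (l := α 1) (q := star (c * (τ₀ * t * ν 20))) hθ.le
    (hα.shift 2) (hα.sa 1) (hα.chi χ hχα 1) (by
      intro B _ π H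
      have a1 := H (σ₀ * s) (by rw [← mul_assoc, hσ₀' _ (hα.mul 1)])
      have a2 : ‖π (star (c * (τ₀ * t * ν 20)) * (σ₀ * s))‖ ≤ θ / 2 * 1 := by
        refine (pile π _).trans ?_
        rw [← norm_star]
        refine le_of_eq_of_le (congrArg _ ?_) (nmul_le hst (hν.ch.le 20))
        simp only [star_mul, star_star, mul_assoc]
      have a3 : ‖π (σ₀ * s)‖ = ‖π (ν 19)‖ :=
        norm_eq_of_sq (by rw [← map_star, ← map_mul, hσ, map_mul, map_star])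
      have a4 : π (ν 20) = 0 := hν.ch.die' π (show 19 < 20 by norm_num) (by nlinarith)
      have a5 := H (α 2) (hα.mul 1)
      rw [map_mul, map_star, map_mul, map_mul, a4, mul_zero, mul_zero, star_zero, zero_mul,
        norm_zero] at a5
      have : ‖π (α 2)‖ = 0 := by nlinarith [norm_nonneg (π (α 2))]
      exact norm_eq_zero.1 this)
  refine ⟨w, τ₀ * t * ν 20, hw _ (hα.mul 0), hww, ?_, (norm_eq_of_sq hτ).trans_le (hν.ch.le 20),
    fun B _ π hπ => ?_, fun B _ π hπ => ?_, ?_⟩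
  · rw [← mul_assoc, ← mul_assoc, hτ₀' _ (hβ.mul 1)]
  · rw [map_mul, hν.ch.die0 π (show 0 < 20 by norm_num) (h0 _ hzβ B π hπ), mul_zero]
  · rw [hτπ] at hπ
    exact hν.small π (hν.ch.die' π (show 20 < 21 by norm_num) hπ)
  · rw [← norm_star]
    refine le_of_eq_of_le (congrArg _ ?_) hqw
    simp only [star_mul, star_star, mul_assoc]

end Crest.Agent.R110
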