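import Crest.Agent.R110.Tools

/-!
Row 110: the one-sided gluing lemma `L1`, the projection case and the compact case.
-/

set_option autoImplicit false

noncomputable section

namespace Crest.Agent.R110

open Filter Topology

universe u

variable {D : Type u} [CStarAlgebra D]

lemma exists_pos_neg {g : D} (hg : star g = g) :
    ∃ a b : D, g = star a * a - star b * b ∧ star a * a * (star b * b) = 0 := by
  let _ := CStarAlgebra.spectralOrder D
  have := CStarAlgebra.spectralOrderedRing D
  have h1 : ∀ p : D, 0 ≤ p → ∃ a : D, star a * a = p := fun p hp =>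
    ⟨CFC.sqrt p, by
      rw [(IsSelfAdjoint.of_nonneg (CFC.sqrt_nonneg _)).star_eq]
      exact CFC.sqrt_mul_sqrt_self _ hp⟩
  obtain ⟨a, ha⟩ := h1 _ (CFC.posPart_nonneg g)
  obtain ⟨b, hb⟩ := h1 _ (CFC.negPart_nonneg g)
  exact ⟨a, b, by rw [ha, hb, CFC.posPart_sub_negPart g hg], by
    rw [ha, hb, CFC.posPart_mul_negPart]⟩

lemma norm_rsmul {θ : ℝ} (hθ : 0 ≤ θ) (w : D) : ‖(θ : ℂ) • w‖ = θ * ‖w‖ := by
  rw [norm_smul, Complex.norm_real, Real.norm_of_nonneg hθ]

lemma star_rsmul (θ : ℝ) (w : D) : star ((θ : ℂ) • w) = (θ : ℂ) • star w := by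
  rw [star_smul, Complex.star_def, Complex.conj_ofReal]

/-- The one-sided gluing lemma. -/
theorem L1 {χ : D →⋆ₐ[ℂ] ℂ} (hPI : PI χ) {l q : D} {θ : ℝ} (hθ : 0 ≤ θ) {κ : ℕ → D}
    (hκ : Chain κ) (hl : star l = l) (hχ : χ l = 0)
    (h : ∀ (B : Type u) [CStarAlgebra B] (π : D →⋆ₐ[ℂ] B),
      (∀ w, l * w = w → θ * ‖π w‖ ≤ ‖π (q * w)‖) → π (κ 0) = 0) :
    ∃ y, star y * y = κ 2 * κ 2 ∧ (∀ l', l' * l = l → l' * y = y) ∧ ‖q * y‖ ≤ θ := by
  set G : D := ((θ : ℂ) * θ) • (1 : D) - star q * q with hG
  have key : ∀ v : D, star v * G * v =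
      star ((θ : ℂ) • v) * ((θ : ℂ) • v) - star (q * v) * (q * v) := fun v => by
    rw [hG, star_rsmul, star_mul, smul_mul_smul_comm, mul_sub, sub_mul, mul_smul_comm,
      smul_mul_assoc, mul_one]
    simp only [mul_assoc]
  have hGs : star G = G := by
    rw [hG, star_sub, star_mul, star_star, ← Complex.ofReal_mul, star_rsmul, star_one]
  obtain ⟨a, b, hab, h0⟩ := exists_pos_neg (g := l * G * l)
    (by rw [star_mul, star_mul, hl, hGs, mul_assoc])
  set p := star a * a with hp
  have hps : star p = p := by rw [hp, star_mul, star_star]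
  have h3 : star (l * p) * G * (l * p) = p * p * p := by
    rw [star_mul, hps, hl]
    calc p * l * G * (l * p) = p * (l * G * l) * p := by noncomm_ring
      _ = p * p * p - p * (star b * b) * p := by rw [hab]; noncomm_ring
      _ = _ := by rw [h0, zero_mul, sub_zero]
  have hcov : Cov (l * p) (κ 0) := by
    intro B _ π hπ
    have a1 : π p * π p * π p = 0 := by
      rw [← map_mul, ← map_mul, ← h3, map_mul, hπ, mul_zero]
    have a2 : star (π p) = π p := by rw [← map_star, hps]
    have a3 : π p * π p = 0 := eq_zero_of_sq (by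
      rw [star_mul, a2, ← mul_assoc, a1, zero_mul])
    have a4 : π p = 0 := eq_zero_of_sq (by rw [a2, a3])
    refine h B π fun w hw => ?_
    have a5 : star w * G * w = star w * p * w - star (b * w) * (b * w) := by
      calc star w * G * w = star (l * w) * G * (l * w) := by rw [hw]
        _ = star w * (l * G * l) * w := by rw [star_mul, hl]; noncomm_ring
        _ = _ := by rw [hab, star_mul]; noncomm_ring
    rw [key] at a5
    have a6 := congrArg π a5
    simp only [map_sub, map_mul π (star _), map_mul π (star w * p), map_star, a4, mul_zero,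
      zero_mul, zero_sub] at a6
    have a7 : star (π (q * w)) * π (q * w) =
        star (π ((θ : ℂ) • w)) * π ((θ : ℂ) • w) + star (π (b * w)) * π (b * w) := by
      rw [sub_eq_iff_eq_add] at a6
      rw [a6]; abel
    have := norm_le_of_add a7
    rwa [map_smul, norm_rsmul hθ] at this
  obtain ⟨y, hy, hS⟩ := cmpx hPI hκ (x := l * p) (by rw [map_mul, hχ, zero_mul]) hcov
    (hκ.mul 1) (hκ.le 2)
  refine ⟨y, by rw [hy, hκ.sa], fun l' hl' => hS {w | l' * w = w} (top_closed l') fun d => by
    rw [Set.mem_ofPred_eq, ← mul_assoc, ← mul_assoc, hl'], ?_⟩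
  have hy1 : ‖q * y‖ ≤ θ * ‖y‖ := by
    refine hS {w | ‖q * w‖ ≤ θ * ‖w‖} (isClosed_le (by fun_prop) (by fun_prop)) fun d => ?_
    have a1 : star (l * p * d) * G * (l * p * d) = star (a * p * d) * (a * p * d) := by
      calc star (l * p * d) * G * (l * p * d) = star d * (star (l * p) * G * (l * p)) * d := by
            rw [star_mul (l * p)]; noncomm_ring
        _ = star d * (p * (star a * a) * p) * d := by rw [h3]
        _ = _ := by rw [star_mul, star_mul, hps]; noncomm_ring
    rw [key, sub_eq_iff_eq_add, add_comm] at a1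
    have := norm_le_of_add a1
    rwa [norm_rsmul hθ] at this
  have hy2 : ‖y‖ ≤ 1 := (norm_eq_of_sq hy).trans_le (hκ.le 2)
  nlinarith

end Crest.Agent.R110
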