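import Crest.Agent.R110.Inc

/-!
Row 110: averaging over levels.
-/

set_option autoImplicit false

noncomputable section

namespace Crest.Agent.R110

open Filter Topology

universe u

variable {D : Type u} [CStarAlgebra D]

/-- The state of the averaging induction after `i` steps. -/
structure St (α β : ℕ → D) (c : D) (η Θ N : ℝ) (i : ℕ) (S U τ : D) (n : ℕ) : Prop where
  hS : ‖star S * S - i • (α n * α n)‖ ≤ i ^ 2 * η
  hU : star U * U = α n * α n
  hSU : ‖star S * U‖ ≤ i * η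
  S0 : α 0 * S = S
  U0 : α 0 * U = U
  τ1 : β 1 * τ = τ
  τle : ‖τ‖ ≤ 1
  τcov : Cov (β 2) τ
  Sτ : ‖star S * c * τ‖ ≤ 1
  H : ∀ (B : Type u) [CStarAlgebra B] (π : D →⋆ₐ[ℂ] B) (x x' : D), ‖x‖ ≤ 1 → ‖x'‖ ≤ N - i →
    (∀ w, β 1 * w = w → Θ * ‖π w‖ ≤ ‖π (star (S * x + U * x') * c * w)‖) → ‖π τ‖ < 1 →
      π (β 4) = 0

lemma St.zero {α β : ℕ → D} (hα : Chain α) (hβ : Chain β) (c : D) (η Θ N : ℝ) :
    St α β c η Θ N 0 0 (α 1) (β 3) 1 where
  hS := by simp
  hU := by rw [hα.sa]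
  hSU := by simp
  S0 := mul_zero _
  U0 := hα.mul 0
  τ1 := hβ.mul_lt (by norm_num)
  τle := hβ.le 3
  τcov B _ π h := hβ.die0 π (by norm_num) h
  Sτ := by simp
  H B _ π _ _ _ _ _ h := hβ.die' π (by norm_num) h

lemma St.step {χ : D →⋆ₐ[ℂ] ℂ} (hPI : PI χ) {α β : ℕ → D} (hα : Chain α) (hβ : Chain β)
    (hχα : χ (α 0) = 0) (hχβ : χ (β 0) = 0) {c : D} {η Θ N : ℝ} (hη : 0 < η) (hN : 0 < N)
    (hΘ : ‖c‖ + 2 < Θ) {i : ℕ} {S U τ : D} {n : ℕ} (h : St α β c η Θ N i S U τ n) :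
    ∃ S' U' τ' n', St α β c η Θ N (i + 1) S' U' τ' n' := by
  have hχ := hα.chi χ hχα
  obtain ⟨r, r', hr, hr', hrr, hrr', hr2⟩ := split hPI (hα.shift n) (hχ _) hη
  simp only [zero_add] at hr hr'
  obtain ⟨m, hm⟩ : ∃ m, m = 4 + (3 + n) := ⟨_, rfl⟩
  have hU1 : ‖U‖ ≤ 1 := (norm_eq_of_sq (y := α n) (by rw [h.hU, hα.sa])).trans_le (hα.le n)
  have hr1 : ‖r‖ ≤ 1 := (norm_eq_of_sq (y := α _) (by rw [hrr, hα.sa])).trans_le (hα.le _)
  have hr'1 : ‖r'‖ ≤ 1 := (norm_eq_of_sq (y := α _) (by rw [hrr', hα.sa])).trans_le (hα.le _)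
  have hk : ∀ a b : D, α n * b = b → star (U * a) * (U * b) = star a * b := fun a b hb => by
    rw [star_mul, mul_assoc, ← mul_assoc (star U), h.hU, mul_assoc, hb, hb]
  obtain ⟨w, τ', hw, hww, hτ1, hτ2, hτ3, hτ4, hτ5⟩ := inc hPI (hα.shift (3 + n)) hβ (hχ _) hχβ
    (z := star (U * r' * α m) * c * τ) (by rw [map_mul, map_mul, map_star, map_mul, hχ]; simp)
    (fun B _ π hπ => by
      rw [map_mul, map_mul, map_star, map_mul, hα.die0 π (by omega) hπ]; simp)
    (fun B _ π hπ => by rw [map_mul, h.τcov B π hπ, mul_zero])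
    (star (S + U * r) * c) (ε := (1 / N) ^ 2) (θ := 1) (by positivity) one_pos
  rw [← hm] at hww
  simp only [zero_add] at hw
  have hw1 : ‖w‖ ≤ 1 := (norm_eq_of_sq (y := α _) (by rw [hww, hα.sa])).trans_le (hα.le _)
  have hwn : α n * w = w := hα.top (by omega) hw
  refine ⟨(S + U * r) * w, U * r' * α m, τ', m, ?_, ?_, ?_, ?_, ?_, hτ1, hτ2, hτ3, ?_, ?_⟩
  · have e1 : star w * (i • (α n * α n)) * w = i • (α m * α m) := by
      rw [mul_smul_comm, smul_mul_assoc, mul_assoc, mul_assoc, hwn, hwn, hww]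
    have e2 : star w * (star (U * r) * (U * r)) * w = α m * α m := by
      rw [hk _ _ hr, hrr, mul_assoc, mul_assoc, hw, hw, hww]
    have e : star ((S + U * r) * w) * ((S + U * r) * w) - (i + 1) • (α m * α m) =
        star w * (star S * S - i • (α n * α n)) * w + star w * (star S * U * r) * w +
          star (star w * (star S * U * r) * w) := by
      rw [succ_nsmul]
      conv_lhs => rw [← e1]; enter [2, 2]; rw [← e2]
      generalize i • (α n * α n) = X
      simp only [star_mul, star_add, star_star]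
      noncomm_ring
    rw [e]
    have b1 := nmul_le (nmul_le (nstar_le hw1) h.hS) hw1
    have b2 := nmul_le (nmul_le (nstar_le hw1) (nmul_le h.hSU hr1)) hw1
    refine (norm_add_le_of_le (norm_add_le_of_le b1 b2) (nstar_le b2)).trans ?_
    push_cast
    nlinarith
  · rw [star_mul, mul_assoc, ← mul_assoc (star (U * r')), hk _ _ hr', hrr', hα.sa, mul_assoc,
      hα.mul_lt (by omega), hα.mul_lt (by omega)]
  · have e : star ((S + U * r) * w) * (U * r' * α m) =
        star w * (star S * U * r' + star (U * r) * (U * r')) * α m := by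
      simp only [star_mul, star_add]
      noncomm_ring
    rw [e, hk _ _ hr']
    have b1 := nmul_le (nmul_le (nstar_le hw1)
      (norm_add_le_of_le (nmul_le h.hSU hr'1) hr2)) (hα.le m)
    refine b1.trans (le_of_eq ?_)
    push_cast
    ring
  · rw [← mul_assoc, mul_add, ← mul_assoc, h.S0, h.U0]
  · rw [← mul_assoc, ← mul_assoc, h.U0]
  · rwa [star_mul, mul_assoc (star w)]
  · intro B _ π x x' hx hx' H hτ'
    push_cast at hx'
    have e : (S + U * r) * w * x + U * r' * α m * x' =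
        S * (w * x) + U * (r * w * x + r' * α m * x') := by noncomm_ring
    refine h.H B π (w * x) (r * w * x + r' * α m * x') (by simpa using nmul_le hw1 hx) ?_
      (by rwa [← e]) ?_
    · refine (norm_add_le_of_le (nmul_le (nmul_le hr1 hw1) hx)
        (nmul_le (nmul_le hr'1 (hα.le m)) hx')).trans (le_of_eq ?_)
      ring
    · have a1 := H τ h.τ1
      have a2 : ‖π (star (U * r' * α m) * c * τ)‖ ≤ 1 / N :=
        le_of_sq (by positivity) (hτ4 B π hτ')
      have e2 : star ((S + U * r) * w * x + U * r' * α m * x') * c * τ =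
          star (w * x) * (star S * c * τ) + star (U * r * w * x) * c * τ +
            star x' * (star (U * r' * α m) * c * τ) := by
        simp only [star_mul, star_add]
        noncomm_ring
      have hxN : ‖x'‖ ≤ N := hx'.trans (by have : (0 : ℝ) ≤ i := Nat.cast_nonneg i; linarith)
      have a3 : ‖π (star ((S + U * r) * w * x + U * r' * α m * x') * c * τ)‖ ≤
          1 * 1 * 1 + 1 * 1 * 1 * 1 * ‖c‖ * 1 + N * (1 / N) := by
        rw [e2, map_add]
        refine norm_add_le_of_le ((pile π _).trans (norm_add_le_of_le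
          (nmul_le (nstar_le (nmul_le hw1 hx)) h.Sτ)
          (nmul_le (nmul_le (nstar_le (nmul_le (nmul_le (nmul_le hU1 hr1) hw1) hx)) le_rfl)
            h.τle))) ?_
        rw [map_mul]
        exact nmul_le ((pile π _).trans (nstar_le hxN)) a2
      rw [mul_one_div_cancel hN.ne'] at a3
      by_contra hc
      push Not at hc
      nlinarith [norm_nonneg c]

theorem main {χ : D →⋆ₐ[ℂ] ℂ} (hPI : PI χ) {α β : ℕ → D} (hα : Chain α) (hβ : Chain β)
    (hχα : χ (α 0) = 0) (hχβ : χ (β 0) = 0) (c : D) {θ η : ℝ} (hθ : 0 < θ) (hη : 0 < η) :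
    ∃ (s t : D) (n : ℕ), α 0 * s = s ∧ ‖star s * s - α n * α n‖ ≤ η ∧ β 0 * t = t ∧
      star t * t = β 6 * β 6 ∧ ‖star s * c * t‖ ≤ θ := by
  obtain ⟨K, hK⟩ := exists_nat_gt ((‖c‖ + 2) / θ)
  have hK0 : (0 : ℝ) < K := lt_trans (by positivity) hK
  rw [div_lt_iff₀ hθ] at hK
  have hN : (0 : ℝ) < (K ^ 2 : ℕ) := by push_cast; positivity
  have hst : ∀ i, ∃ S U τ n, St α β c (η / (K ^ 2 : ℕ)) (K * θ) (K ^ 2 : ℕ) i S U τ n := by
    intro i
    induction i with
    | zero => exact ⟨_, _, _, _, St.zero hα hβ c _ _ _⟩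
    | succ i ih =>
      obtain ⟨S, U, τ, n, h⟩ := ih
      exact h.step hPI hα hβ hχα hχβ (by positivity) hN hK
  obtain ⟨S, U, τ, n, h⟩ := hst (K ^ 2)
  obtain ⟨t, htt, ht, hqt⟩ := L1 hPI (l := β 1) (q := star S * c) (θ := K * θ) (by positivity)
    (hβ.shift 4) (hβ.sa 1) (hβ.chi χ hχβ 1) (by
      intro B _ π H
      refine h.H B π 1 0 n1 (by simp) (by simpa using H) ?_
      have a1 := (H τ h.τ1).trans ((pile π _).trans h.Sτ)
      by_contra hc
      push Not at hc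
      nlinarith [norm_nonneg c])
  have hK1 : (0 : ℝ) ≤ (K : ℝ)⁻¹ := by positivity
  refine ⟨(((K : ℝ)⁻¹ : ℝ) : ℂ) • S, t, n, by rw [mul_smul_comm, h.S0], ?_, ht _ (hβ.mul 0), htt,
    ?_⟩
  · have e : star ((((K : ℝ)⁻¹ : ℝ) : ℂ) • S) * (((K : ℝ)⁻¹ : ℝ) : ℂ) • S - α n * α n =
        (((K : ℝ)⁻¹ * (K : ℝ)⁻¹ : ℝ) : ℂ) • (star S * S - (K ^ 2) • (α n * α n)) := by
      rw [star_rsmul, smul_mul_smul_comm, smul_sub, ← Nat.cast_smul_eq_nsmul ℂ, smul_smul]
      have hK' : (K : ℂ) ≠ 0 := by exact_mod_cast hK0.ne'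
      have : (((K : ℝ)⁻¹ * (K : ℝ)⁻¹ : ℝ) : ℂ) * ((K ^ 2 : ℕ) : ℂ) = 1 := by
        push_cast; field_simp
      rw [this, one_smul, Complex.ofReal_mul]
    rw [e, norm_rsmul (by positivity)]
    refine (mul_le_mul_of_nonneg_left h.hS (by positivity)).trans (le_of_eq ?_)
    push_cast
    field_simp
  · rw [star_rsmul, smul_mul_assoc, smul_mul_assoc, norm_rsmul hK1]
    refine (mul_le_mul_of_nonneg_left hqt hK1).trans (le_of_eq ?_)
    field_simp

end Crest.Agent.R110
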