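import Mathlib

/-!
Quotient of a unital C⋆-algebra by a closed two-sided star-closed ideal (universe polymorphic
copy of `Crest.Agent.R137.Quot`).
-/

set_option autoImplicit false

namespace Crest.Agent.R110

universe u

section Quot

variable {B : Type u} [CStarAlgebra B]

/-- A closed two-sided star-closed ideal. -/
structure CIdeal (B : Type u) [CStarAlgebra B] where
  I : Ideal B
  two : I.IsTwoSided
  closed : IsClosed (I : Set B)
  star_mem : ∀ x ∈ I, star x ∈ I

/-- The quotient algebra. -/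
def CIdeal.Q (J : CIdeal B) : Type u := B ⧸ J.I

namespace CIdeal

variable (J : CIdeal B)

instance : J.I.IsTwoSided := J.two
instance : IsClosed (J.I : Set B) := J.closed

lemma norm_mk_lt (x : B ⧸ J.I) {ε : ℝ} (hε : 0 < ε) :
    ∃ r : B, Ideal.Quotient.mk J.I r = x ∧ ‖r‖ < ‖x‖ + ε :=
  Submodule.Quotient.norm_mk_lt x hε

lemma norm_mk_le (r : B) : ‖Ideal.Quotient.mk J.I r‖ ≤ ‖r‖ := Submodule.Quotient.norm_mk_le J.I r

@[reducible] noncomputable def normedRingQ : NormedRing (B ⧸ J.I) :=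
  { Ideal.Quotient.ring J.I, Submodule.Quotient.normedAddCommGroup J.I with
    dist_eq := dist_eq_norm_neg_add
    norm_mul_le := fun x y => le_of_forall_pos_le_add fun ε hε => by
      have := ((Metric.nhds_basis_ball.prod_nhds Metric.nhds_basis_ball).tendsto_iff
        Metric.nhds_basis_ball).mp (continuous_mul.tendsto (‖x‖, ‖y‖)) ε hε
      simp only [Set.mem_prod, Metric.mem_ball, and_imp, Prod.forall, Prod.exists] at this
      rcases this with ⟨ε₁, ε₂, ⟨h₁, h₂⟩, h⟩
      obtain ⟨⟨a, rfl, ha⟩, ⟨b, rfl, hb⟩⟩ := J.norm_mk_lt x h₁, J.norm_mk_lt y h₂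
      simp only [dist, abs_sub_lt_iff] at h
      specialize h ‖a‖ ‖b‖ ⟨by linarith, by linarith [J.norm_mk_le a]⟩
        ⟨by linarith, by linarith [J.norm_mk_le b]⟩
      calc
        _ ≤ ‖a‖ * ‖b‖ := (J.norm_mk_le (a * b)).trans (norm_mul_le a b)
        _ ≤ _ := (sub_lt_iff_lt_add'.mp h.1).le }

noncomputable instance : NormedRing J.Q := J.normedRingQ

noncomputable instance : NormedAlgebra ℂ J.Q :=
  { Submodule.Quotient.normedSpace J.I ℂ, Ideal.Quotient.algebra ℂ with }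

instance : CompleteSpace J.Q := Submodule.Quotient.completeSpace J.I

/-- The quotient map. -/
noncomputable def pr : B →ₐ[ℂ] J.Q := Ideal.Quotient.mkₐ ℂ J.I

lemma mk_surj : Function.Surjective J.pr := Ideal.Quotient.mkₐ_surjective ℂ J.I

lemma mk_eq_zero {x : B} : J.pr x = 0 ↔ x ∈ J.I := Ideal.Quotient.eq_zero_iff_mem

lemma mk_le (r : B) : ‖J.pr r‖ ≤ ‖r‖ := J.norm_mk_le r

lemma mk_lt (x : J.Q) {ε : ℝ} (hε : 0 < ε) : ∃ r : B, J.pr r = x ∧ ‖r‖ < ‖x‖ + ε :=
  J.norm_mk_lt x hε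

noncomputable instance : Star J.Q where
  star := Quotient.map' star (by
    intro a b h
    rw [Submodule.quotientRel_def] at h ⊢
    rw [← star_sub]
    exact J.star_mem _ h)

lemma star_mk (x : B) : star (J.pr x) = J.pr (star x) := rfl

noncomputable instance : StarRing J.Q where
  star_involutive x := by
    obtain ⟨x, rfl⟩ := J.mk_surj x
    rw [star_mk, star_mk, star_star]
  star_mul x y := by
    obtain ⟨x, rfl⟩ := J.mk_surj x
    obtain ⟨y, rfl⟩ := J.mk_surj y
    rw [← map_mul, star_mk, star_mk, star_mk, ← map_mul, star_mul]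
  star_add x y := by
    obtain ⟨x, rfl⟩ := J.mk_surj x
    obtain ⟨y, rfl⟩ := J.mk_surj y
    rw [← map_add, star_mk, star_mk, star_mk, ← map_add, star_add]

instance : StarModule ℂ J.Q where
  star_smul c x := by
    obtain ⟨x, rfl⟩ := J.mk_surj x
    rw [← map_smul, star_mk, star_mk, ← map_smul, star_smul]

lemma exists_approx {j : B} (hj : j ∈ J.I) {ε : ℝ} (hε : 0 < ε) :
    ∃ f : B, IsSelfAdjoint f ∧ ‖f‖ ≤ 1 ∧ 1 - f ∈ J.I ∧ ‖j * f‖ ≤ ε := by
  let _ := CStarAlgebra.spectralOrder B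
  have := CStarAlgebra.spectralOrderedRing B
  set h := star j * j with hh
  have h0 : 0 ≤ h := star_mul_self_nonneg j
  have hsa : IsSelfAdjoint h := IsSelfAdjoint.star_mul_self j
  set δ := ε ^ 2 with hδ
  have hδ0 : 0 < δ := by positivity
  have hsp : ∀ t ∈ spectrum ℝ h, 0 ≤ t := fun t ht => spectrum_nonneg_of_nonneg h0 ht
  have hc1 : ContinuousOn (fun t : ℝ => δ / (δ + t)) (spectrum ℝ h) :=
    continuousOn_const.div (by fun_prop) (fun t ht => by have := hsp t ht; positivity)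
  have hc2 : ContinuousOn (fun t : ℝ => 1 / (δ + t)) (spectrum ℝ h) :=
    continuousOn_const.div (by fun_prop) (fun t ht => by have := hsp t ht; positivity)
  refine ⟨cfc (fun t : ℝ => δ / (δ + t)) h, cfc_predicate _ _, ?_, ?_, ?_⟩
  · refine norm_cfc_le zero_le_one fun t ht => ?_
    have := hsp t ht
    rw [Real.norm_eq_abs, abs_of_nonneg (by positivity), div_le_one (by positivity)]
    linarith
  · have : 1 - cfc (fun t : ℝ => δ / (δ + t)) h = cfc (fun t : ℝ => 1 / (δ + t)) h * h := by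
      conv_rhs => rw [← cfc_id' ℝ h]
      rw [cfc_id' ℝ h]
      nth_rewrite 3 [← cfc_id' ℝ h]
      rw [← cfc_mul _ _ h hc2, ← cfc_const_one ℝ h, ← cfc_sub _ _ h (by fun_prop) hc1]
      refine cfc_congr fun t ht => ?_
      have := hsp t ht
      field_simp
      ring
    rw [this]
    exact J.I.mul_mem_left _ (J.I.mul_mem_left _ hj)
  · have hf : IsSelfAdjoint (cfc (fun t : ℝ => δ / (δ + t)) h) := cfc_predicate _ _
    have h1 : star (j * cfc (fun t : ℝ => δ / (δ + t)) h) * (j * cfc (fun t : ℝ => δ / (δ + t)) h)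
        = cfc (fun t : ℝ => δ / (δ + t) * t * (δ / (δ + t))) h := by
      rw [cfc_mul (fun t : ℝ => δ / (δ + t) * t) _ h (hc1.mul continuousOn_id) hc1,
        cfc_mul _ (fun t : ℝ => t) h hc1, cfc_id' ℝ h, star_mul, hf.star_eq, hh]
      simp only [mul_assoc]
    have h2 : ‖cfc (fun t : ℝ => δ / (δ + t) * t * (δ / (δ + t))) h‖ ≤ δ := by
      refine norm_cfc_le hδ0.le fun t ht => ?_
      have := hsp t ht
      rw [Real.norm_eq_abs, abs_of_nonneg (by positivity)]
      have e1 : δ / (δ + t) * t ≤ δ := by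
        rw [div_mul_eq_mul_div, div_le_iff₀ (by positivity)]; nlinarith
      have e2 : δ / (δ + t) ≤ 1 := by rw [div_le_one (by positivity)]; linarith
      have e3 : 0 ≤ δ / (δ + t) * t := by positivity
      nlinarith
    rw [← h1, CStarRing.norm_star_mul_self] at h2
    nlinarith [norm_nonneg (j * cfc (fun t : ℝ => δ / (δ + t)) h)]

instance : CStarRing J.Q where
  norm_mul_self_le x := by
    obtain ⟨x, rfl⟩ := J.mk_surj x
    refine le_of_forall_pos_le_add fun ε hε => ?_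
    obtain ⟨r, hr, hr'⟩ := J.mk_lt (star (J.pr x) * J.pr x) (half_pos hε)
    have hj : star x * x - r ∈ J.I := by
      rw [← mk_eq_zero, map_sub, hr, map_mul, star_mk, sub_self]
    obtain ⟨f, hf, hf1, hf2, hf3⟩ := J.exists_approx hj (half_pos hε)
    have h1 : J.pr x = J.pr (x * f) := by
      rw [← sub_eq_zero, ← map_sub, mk_eq_zero]
      have : x - x * f = x * (1 - f) := by noncomm_ring
      rw [this]; exact J.I.mul_mem_left _ hf2
    have h2 : ‖J.pr x‖ ≤ ‖x * f‖ := h1 ▸ J.mk_le _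
    have h3 : ‖x * f‖ * ‖x * f‖ = ‖f * (r * f + (star x * x - r) * f)‖ := by
      rw [← CStarRing.norm_star_mul_self, star_mul, hf.star_eq]
      congr 1; noncomm_ring
    have h4 : ‖f * (r * f + (star x * x - r) * f)‖ ≤ ‖r‖ + ε / 2 := by
      calc _ ≤ ‖f‖ * ‖r * f + (star x * x - r) * f‖ := norm_mul_le _ _
        _ ≤ 1 * (‖r * f‖ + ‖(star x * x - r) * f‖) := by
          gcongr; exact norm_add_le _ _
        _ ≤ ‖r‖ + ε / 2 := by
          have : ‖r * f‖ ≤ ‖r‖ := (norm_mul_le _ _).trans (by nlinarith [norm_nonneg r])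
          linarith
    have h5 : ‖J.pr x‖ * ‖J.pr x‖ ≤ ‖x * f‖ * ‖x * f‖ :=
      mul_le_mul h2 h2 (norm_nonneg _) (norm_nonneg _)
    linarith

noncomputable instance : CStarAlgebra J.Q :=
  { (inferInstance : NormedRing J.Q), (inferInstance : StarRing J.Q),
    (inferInstance : CompleteSpace J.Q), (inferInstance : CStarRing J.Q),
    (inferInstance : NormedAlgebra ℂ J.Q), (inferInstance : StarModule ℂ J.Q) with }

end CIdeal

/-- The quotient by a closed two-sided star-closed ideal given as a set. -/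
theorem exists_quot (S : Set B) (h0 : (0 : B) ∈ S) (hadd : ∀ x ∈ S, ∀ y ∈ S, x + y ∈ S)
    (hl : ∀ c, ∀ x ∈ S, c * x ∈ S) (hr : ∀ c, ∀ x ∈ S, x * c ∈ S) (hs : ∀ x ∈ S, star x ∈ S)
    (hc : IsClosed S) :
    ∃ (A : Type u) (_ : CStarAlgebra A) (π : B →⋆ₐ[ℂ] A), Function.Surjective π ∧
      (∀ x, π x = 0 ↔ x ∈ S) ∧
      (∀ (x : A) (ε : ℝ), 0 < ε → ∃ r : B, π r = x ∧ ‖r‖ < ‖x‖ + ε) ∧
      ∀ χ : B →⋆ₐ[ℂ] ℂ, (∀ x ∈ S, χ x = 0) → ∃ χ' : A →⋆ₐ[ℂ] ℂ, ∀ x, χ' (π x) = χ x := by
  let I₀ : Ideal B :=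
    { carrier := S
      zero_mem' := h0
      add_mem' := fun {a b} ha hb => hadd a ha b hb
      smul_mem' := fun c x hx => hl c x hx }
  let J : CIdeal B :=
    { I := I₀
      two := ⟨fun {a} c ha => hr c a ha⟩
      closed := hc
      star_mem := hs }
  refine ⟨J.Q, inferInstance, { J.pr with map_star' := fun x => (J.star_mk x).symm }, J.mk_surj,
    fun x => J.mk_eq_zero, fun x ε hε => J.mk_lt x hε, fun χ hχ => ?_⟩
  have : J.I.IsTwoSided := J.two
  let φ : J.Q →ₐ[ℂ] ℂ := Ideal.Quotient.liftₐ J.I χ.toAlgHom hχ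
  have hφ : ∀ x, φ (J.pr x) = χ x := fun x => rfl
  refine ⟨{ φ with map_star' := fun x => ?_ }, hφ⟩
  obtain ⟨x, rfl⟩ := J.mk_surj x
  change φ (star (J.pr x)) = star (φ (J.pr x))
  rw [J.star_mk, hφ, hφ, map_star]

end Quot

end Crest.Agent.R110
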