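import Crest.Agent.R110.Basic
import Crest.Agent.R110.Quot

/-!
Row 110: chains, level functions, comparison in the properly infinite setting.
-/

set_option autoImplicit false

noncomputable section

namespace Crest.Agent.R110

open Filter Topology

universe u

variable {D : Type u} [CStarAlgebra D]

lemma pile {B : Type u} [CStarAlgebra B] (π : D →⋆ₐ[ℂ] B) (z : D) : ‖π z‖ ≤ ‖z‖ :=
  NonUnitalStarAlgHom.norm_apply_le π z

lemma n1 : ‖(1 : D)‖ ≤ 1 := by
  have h := nsq (1 : D)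
  rw [star_one, one_mul] at h
  nlinarith [norm_nonneg (1 : D)]

lemma norm_eq_of_sq {x y : D} (h : star x * x = star y * y) : ‖x‖ = ‖y‖ := by
  have h1 := nsq x
  rw [h, nsq] at h1
  exact (pow_left_inj₀ (norm_nonneg _) (norm_nonneg _) two_ne_zero).1 h1.symm

lemma eq_zero_of_sq {x : D} (h : star x * x = 0) : x = 0 :=
  (CStarRing.star_mul_self_eq_zero_iff x).1 h

lemma nmul_le {x y : D} {a b : ℝ} (hx : ‖x‖ ≤ a) (hy : ‖y‖ ≤ b) : ‖x * y‖ ≤ a * b :=
  (norm_mul_le _ _).trans (mul_le_mul hx hy (norm_nonneg _) ((norm_nonneg _).trans hx))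

lemma nstar_le {x : D} {a : ℝ} (hx : ‖x‖ ≤ a) : ‖star x‖ ≤ a := by rwa [norm_star]

lemma top_star {l x : D} (hl : star l = l) (h : l * x = x) : star x * l = star x := by
  have := congrArg star h
  rwa [star_mul, hl] at this

namespace Chain

variable {κ : ℕ → D}

lemma mul_lt (h : Chain κ) {i j : ℕ} (hij : i < j) : κ i * κ j = κ j := by
  induction j with
  | zero => omega
  | succ j ih =>
    rcases Nat.lt_succ_iff_lt_or_eq.1 hij with h1 | h1
    · rw [← h.mul j, ← mul_assoc, ih h1]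
    · rw [h1, h.mul]

lemma mul_gt (h : Chain κ) {i j : ℕ} (hij : i < j) : κ j * κ i = κ j := by
  have := top_star (h.sa i) (h.mul_lt hij)
  rwa [h.sa] at this

lemma top (h : Chain κ) {i j : ℕ} (hij : i < j) {x : D} (hx : κ j * x = x) : κ i * x = x := by
  rw [← hx, ← mul_assoc, h.mul_lt hij]

lemma top_of (h : Chain κ) {l : D} (hl : l * κ 0 = κ 0) (i : ℕ) : l * κ i = κ i := by
  rcases Nat.eq_zero_or_pos i with rfl | hi
  · exact hl
  · rw [← h.mul_lt hi, ← mul_assoc, hl]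

lemma shift (h : Chain κ) (n : ℕ) : Chain fun i => κ (i + n) where
  sa _ := h.sa _
  le _ := h.le _
  le' _ := h.le' _
  mul _ := h.mul_lt (by omega)

lemma map (h : Chain κ) {B : Type u} [CStarAlgebra B] (π : D →⋆ₐ[ℂ] B) :
    Chain fun i => π (κ i) where
  sa i := by rw [← map_star, h.sa]
  le i := (pile π _).trans (h.le i)
  le' i := by rw [← map_one π, ← map_sub]; exact (pile π _).trans (h.le' i)
  mul i := by rw [← map_mul, h.mul]

lemma die (h : Chain κ) {i j : ℕ} (hij : i < j) (hi : ‖κ i‖ < 1) : κ j = 0 := by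
  have h1 : ‖κ j‖ ≤ ‖κ i‖ * ‖κ j‖ := by
    conv_lhs => rw [← h.mul_lt hij]
    exact norm_mul_le _ _
  have : ‖κ j‖ = 0 := by nlinarith [norm_nonneg (κ j)]
  exact norm_eq_zero.1 this

lemma die' (h : Chain κ) {B : Type u} [CStarAlgebra B] (π : D →⋆ₐ[ℂ] B) {i j : ℕ} (hij : i < j)
    (hi : ‖π (κ i)‖ < 1) : π (κ j) = 0 := (h.map π).die hij hi

lemma die0 (h : Chain κ) {B : Type u} [CStarAlgebra B] (π : D →⋆ₐ[ℂ] B) {i j : ℕ} (hij : i < j)
    (hi : π (κ i) = 0) : π (κ j) = 0 := h.die' π hij (by rw [hi]; simp)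

lemma chi (h : Chain κ) (χ : D →⋆ₐ[ℂ] ℂ) (h0 : χ (κ 0) = 0) (i : ℕ) : χ (κ i) = 0 := by
  rcases Nat.eq_zero_or_pos i with rfl | hi
  · exact h0
  · rw [← h.mul_lt hi, map_mul, h0, zero_mul]

lemma const {p : D} (hp : star p = p) (hpp : p * p = p) : Chain fun _ => p where
  sa _ := hp
  le _ := by
    have h := nsq p
    rw [hp, hpp] at h
    nlinarith [norm_nonneg p]
  le' _ := by
    have h := nsq (1 - p)
    have e : star (1 - p) * (1 - p) = 1 - p := by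
      rw [star_sub, star_one, hp]
      calc (1 - p) * (1 - p) = 1 - p - p + p * p := by noncomm_ring
        _ = 1 - p := by rw [hpp]; abel
    rw [e] at h
    nlinarith [norm_nonneg (1 - p)]
  mul _ := hpp

end Chain

lemma chi_top (χ : D →⋆ₐ[ℂ] ℂ) {l x : D} (hl : χ l = 0) (h : l * x = x) : χ x = 0 := by
  rw [← h, map_mul, hl, zero_mul]

/-- Level functions `ν` of `W⋆W`, vanishing below `δ` and equal to one above `β`. -/
structure Lev (W : D) (δ β : ℝ) (ν : ℕ → D) (F : D) : Prop where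
  pos : 0 < δ
  ch : Chain ν
  sa : star F = F
  le : ‖F‖ * δ ≤ 1
  cF : Commute F (star W * W)
  cν : ∀ i, Commute (ν i) (star W * W)
  inv : F * (star W * W) * ν 0 = ν 0
  low : ∀ i, ‖star W * W * (1 - ν i)‖ ≤ β

theorem exists_lev (W : D) {δ β : ℝ} (hδ : 0 < δ) (hβ : δ < β) : ∃ ν F, Lev W δ β ν F := by
  obtain ⟨ν, G, h1, h2, h3, h4, h5, -, h7, h8⟩ := lev0 W hδ hβ
  refine ⟨ν, G * G, hδ, h1, by rw [star_mul, h2], ?_, h4.mul_left h4, h5, h7, h8⟩
  have := norm_mul_le G G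
  nlinarith

namespace Lev

variable {W : D} {δ β : ℝ} {ν : ℕ → D} {F : D}

lemma map (h : Lev W δ β ν F) {B : Type u} [CStarAlgebra B] (π : D →⋆ₐ[ℂ] B) :
    Lev (π W) δ β (fun i => π (ν i)) (π F) where
  pos := h.pos
  ch := h.ch.map π
  sa := by rw [← map_star, h.sa]
  le := (mul_le_mul_of_nonneg_right (pile π F) h.pos.le).trans h.le
  cF := by rw [← map_star, ← map_mul]; exact h.cF.map π
  cν i := by rw [← map_star, ← map_mul]; exact (h.cν i).map π
  inv := by rw [← map_star, ← map_mul, ← map_mul, ← map_mul, h.inv]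
  low i := by
    rw [← map_star, ← map_mul, ← map_one π, ← map_sub, ← map_mul]
    exact (pile π _).trans (h.low i)

lemma inv' (h : Lev W δ β ν F) : star W * W * F * ν 0 = ν 0 := by
  rw [← h.cF.eq, h.inv]

lemma top (h : Lev W δ β ν F) {l : D} (hl : l * star W = star W) (i : ℕ) : l * ν i = ν i := by
  refine h.ch.top_of ?_ i
  rw [← h.inv', ← mul_assoc, ← mul_assoc, ← mul_assoc, hl]

lemma chi (h : Lev W δ β ν F) (χ : D →⋆ₐ[ℂ] ℂ) (hW : χ W = 0) (i : ℕ) : χ (ν i) = 0 := by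
  refine h.ch.chi χ ?_ i
  rw [← h.inv]; simp [hW]

lemma lower (h : Lev W δ β ν F) {w : D} (hw : ν 0 * w = w) : δ * ‖w‖ ^ 2 ≤ ‖W * w‖ ^ 2 := by
  have h1 : F * (star W * W) * w = w := by rw [← hw, ← mul_assoc, h.inv]
  have h2 : star W * W * F * w = w := by rw [← h.cF.eq, h1]
  have e1 : star w * w = star (W * F * w) * (W * w) := by
    rw [star_mul, star_mul, h.sa]
    calc star w * w = star w * (F * (star W * W) * w) := by rw [h1]
      _ = _ := by noncomm_ring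
  have e2 : star (W * F * w) * (W * F * w) = star w * F * w := by
    rw [star_mul, star_mul, h.sa]
    calc star w * (F * star W) * (W * F * w) = star w * F * (star W * W * F * w) := by
          noncomm_ring
      _ = _ := by rw [h2]
  have a1 : ‖w‖ ^ 2 ≤ ‖W * F * w‖ * ‖W * w‖ := by
    rw [← nsq, e1]
    exact nmul_le (nstar_le le_rfl) le_rfl
  have a2 : ‖W * F * w‖ ^ 2 ≤ ‖F‖ * ‖w‖ ^ 2 := by
    rw [← nsq, e2]; exact nconj _ _
  have a3 := h.le
  have a4 := h.pos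
  rcases eq_or_lt_of_le (norm_nonneg w) with h0 | h0
  · rw [← h0]; simp
  have a5 : (‖w‖ ^ 2) ^ 2 ≤ ‖F‖ * ‖w‖ ^ 2 * ‖W * w‖ ^ 2 := by
    calc (‖w‖ ^ 2) ^ 2 ≤ (‖W * F * w‖ * ‖W * w‖) ^ 2 := by gcongr
      _ = ‖W * F * w‖ ^ 2 * ‖W * w‖ ^ 2 := by ring
      _ ≤ _ := by gcongr
  have a6 : ‖w‖ ^ 2 ≤ ‖F‖ * ‖W * w‖ ^ 2 := by
    have hw2 : 0 < ‖w‖ ^ 2 := by positivity
    nlinarith
  nlinarith [sq_nonneg ‖W * w‖, norm_nonneg F]

lemma lower' (h : Lev W δ β ν F) {B : Type u} [CStarAlgebra B] (π : D →⋆ₐ[ℂ] B) {w : D}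
    (hw : ν 0 * w = w) : δ * ‖π w‖ ^ 2 ≤ ‖π (W * w)‖ ^ 2 := by
  rw [map_mul]
  exact (h.map π).lower (by rw [← map_mul, hw])

lemma die (h : Lev W δ β ν F) {B : Type u} [CStarAlgebra B] (π : D →⋆ₐ[ℂ] B)
    (hW : ‖π W‖ ^ 2 < δ) : π (ν 0) = 0 := by
  have h1 := (h.map π).inv
  have h2 := (h.map π).le
  have h3 : ‖π (ν 0)‖ ≤ ‖π F‖ * ‖π W‖ ^ 2 * ‖π (ν 0)‖ := by
    conv_lhs => rw [← h1]
    rw [← nsq]
    exact nm3 _ _ _
  have h4 : ‖π F‖ * ‖π W‖ ^ 2 < 1 := by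
    rcases eq_or_lt_of_le (norm_nonneg (π F)) with h0 | h0
    · rw [← h0]; simp
    · nlinarith
  have : ‖π (ν 0)‖ = 0 := by nlinarith [norm_nonneg (π (ν 0))]
  exact norm_eq_zero.1 this

lemma small (h : Lev W δ β ν F) {B : Type u} [CStarAlgebra B] (π : D →⋆ₐ[ℂ] B) {i : ℕ}
    (hi : π (ν i) = 0) : ‖π W‖ ^ 2 ≤ β := by
  have h1 := (h.map π).low i
  rwa [hi, sub_zero, mul_one, nsq] at h1

end Lev

/-- `e` lies in the closed ideal generated by `x`. -/
def Cov (x e : D) : Prop :=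
  ∀ (B : Type u) [CStarAlgebra B] (π : D →⋆ₐ[ℂ] B), π x = 0 → π e = 0

/-- Proper infiniteness of the positive elements in the kernel of a character. -/
def PI (χ : D →⋆ₐ[ℂ] ℂ) : Prop :=
  ∀ x : D, χ x = 0 → ∀ ε : ℝ, 0 < ε → ∃ r s : D,
    ‖star (x * r) * (x * r) - star x * x‖ < ε ∧ ‖star (x * s) * (x * s) - star x * x‖ < ε ∧
      ‖star (x * r) * (x * s)‖ < ε

lemma PI.quot {χ : D →⋆ₐ[ℂ] ℂ} (h : PI χ) {B : Type u} [CStarAlgebra B] (π : D →⋆ₐ[ℂ] B)
    (hπ : Function.Surjective π) {χ' : B →⋆ₐ[ℂ] ℂ} (hχ : ∀ x, χ' (π x) = χ x) : PI χ' := by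
  intro x hx ε hε
  obtain ⟨x, rfl⟩ := hπ x
  obtain ⟨r, s, h1, h2, h3⟩ := h x (by rwa [hχ] at hx) ε hε
  refine ⟨π r, π s, ?_, ?_, ?_⟩
  · refine lt_of_le_of_lt (le_of_eq_of_le ?_ (pile π _)) h1
    simp only [map_sub, map_mul, map_star]
  · refine lt_of_le_of_lt (le_of_eq_of_le ?_ (pile π _)) h2
    simp only [map_sub, map_mul, map_star]
  · refine lt_of_le_of_lt (le_of_eq_of_le ?_ (pile π _)) h3
    simp only [map_mul, map_star]

/-- Cuntz subequivalence `z⋆z ≾ x⋆x`. -/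
def Le (x z : D) : Prop := ∀ ε : ℝ, 0 < ε → ∃ r : D, ‖star (x * r) * (x * r) - star z * z‖ < ε

lemma Le.closed (x : D) : IsClosed {z | Le x z} := by
  refine isClosed_of_closure_subset fun z hz ε hε => ?_
  have hc : Continuous fun w : D => ‖star w * w - star z * z‖ := by fun_prop
  have ho : IsOpen {w : D | ‖star w * w - star z * z‖ < ε / 2} := isOpen_lt hc continuous_const
  obtain ⟨w, hw1, hw2⟩ := mem_closure_iff.1 hz _ ho (by simpa using hε)
  obtain ⟨r, hr⟩ := hw2 (ε / 2) (by positivity)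
  refine ⟨r, ?_⟩
  have := norm_sub_le_norm_sub_add_norm_sub (star (x * r) * (x * r)) (star w * w) (star z * z)
  have hw1' : ‖star w * w - star z * z‖ < ε / 2 := hw1
  linarith

lemma Le.mul {x z : D} (h : Le x z) (c : D) : Le x (z * c) := by
  intro ε hε
  obtain ⟨r, hr⟩ := h (ε / (‖c‖ ^ 2 + 1)) (by positivity)
  refine ⟨r * c, ?_⟩
  have e : star (x * (r * c)) * (x * (r * c)) - star (z * c) * (z * c) =
      star c * (star (x * r) * (x * r) - star z * z) * c := by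
    simp only [star_mul]; noncomm_ring
  rw [e]
  refine (nconj _ _).trans_lt ?_
  rw [lt_div_iff₀ (by positivity)] at hr
  nlinarith [norm_nonneg (star (x * r) * (x * r) - star z * z)]

lemma Le.mono {x z w : D} (h : Le x z) {C : ℝ} (hC : 0 ≤ C)
    (hw : ∀ K : D, ‖w * K‖ ≤ C * ‖z * K‖) : Le x w := by
  obtain ⟨q, hq, hqq⟩ := exists_sqrt w
  obtain ⟨y, hy, hyy⟩ := fact z q hC fun K hK => by
    have e : ‖K * q‖ = ‖w * K‖ := by
      rw [← norm_star]
      refine norm_eq_of_sq ?_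
      simp only [star_mul, hq.star_eq, hK.star_eq]
      calc K * q * (q * K) = K * (q * q) * K := by noncomm_ring
        _ = _ := by rw [hqq]; noncomm_ring
    rw [e]; exact hw K
  have hy' : Le x y := by
    refine (Le.closed x).closure_subset_iff.2 ?_ hy
    rintro _ ⟨d, -, rfl⟩
    exact h.mul d
  intro ε hε
  rw [← hqq]
  rw [hq.star_eq] at hyy
  rw [← hyy]
  exact hy' ε hε

lemma Le.add {χ : D →⋆ₐ[ℂ] ℂ} (hPI : PI χ) {x z w : D} (hx : χ x = 0) (hz : Le x z)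
    (hw : Le x w) : Le x (z + w) := by
  obtain ⟨q, hq⟩ := exists_sqrt_add z w
  have hq' : Le x q := by
    intro ε hε
    obtain ⟨a, ha⟩ := hz (ε / 4) (by positivity)
    obtain ⟨b, hb⟩ := hw (ε / 4) (by positivity)
    obtain ⟨r, s, h1, h2, h3⟩ := hPI x hx (ε / (2 * ((‖a‖ + ‖b‖) ^ 2 + 1))) (by positivity)
    set η := ε / (2 * ((‖a‖ + ‖b‖) ^ 2 + 1)) with hη
    have hη0 : 0 < η := by positivity
    have hη1 : η * ((‖a‖ + ‖b‖) ^ 2 + 1) = ε / 2 := by rw [hη]; field_simp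
    refine ⟨r * a + s * b, ?_⟩
    have e : star (x * (r * a + s * b)) * (x * (r * a + s * b)) - star q * q =
        (star (x * a) * (x * a) - star z * z) + (star (x * b) * (x * b) - star w * w) +
        star a * (star (x * r) * (x * r) - star x * x) * a +
        star b * (star (x * s) * (x * s) - star x * x) * b +
        star a * (star (x * r) * (x * s)) * b + star (star a * (star (x * r) * (x * s)) * b) := by
      rw [hq]
      simp only [star_mul, star_add, star_star, mul_add, add_mul]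
      noncomm_ring
    rw [e]
    have b1 : ‖star a * (star (x * r) * (x * r) - star x * x) * a‖ ≤ ‖a‖ * η * ‖a‖ :=
      nmul_le (nmul_le (nstar_le le_rfl) h1.le) le_rfl
    have b2 : ‖star b * (star (x * s) * (x * s) - star x * x) * b‖ ≤ ‖b‖ * η * ‖b‖ :=
      nmul_le (nmul_le (nstar_le le_rfl) h2.le) le_rfl
    have b3 : ‖star a * (star (x * r) * (x * s)) * b‖ ≤ ‖a‖ * η * ‖b‖ :=
      nmul_le (nmul_le (nstar_le le_rfl) h3.le) le_rfl
    have b4 := nstar_le b3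
    refine (norm_add_le_of_le (norm_add_le_of_le (norm_add_le_of_le (norm_add_le_of_le
      (norm_add_le_of_le le_rfl le_rfl) b1) b2) b3) b4).trans_lt ?_
    nlinarith
  refine hq'.mono (C := 2) zero_le_two fun K => ?_
  have e : star (q * K) * (q * K) = star (z * K) * (z * K) + star (w * K) * (w * K) := by
    simp only [star_mul]
    calc star K * star q * (q * K) = star K * (star q * q) * K := by noncomm_ring
      _ = _ := by rw [hq]; noncomm_ring
  have a1 := norm_le_of_add e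
  have a2 := norm_le_of_add (e.trans (add_comm _ _))
  rw [add_mul]
  linarith [norm_add_le (z * K) (w * K)]

/-- Comparison: elements of the ideal generated by a properly infinite element are
subequivalent to it. -/
theorem cmp {χ : D →⋆ₐ[ℂ] ℂ} (hPI : PI χ) {x z : D} (hx : χ x = 0) (hz : Cov x z) : Le x z := by
  have hl : ∀ c w : D, Le x w → Le x (c * w) := fun c w hw =>
    hw.mono (norm_nonneg c) fun K => by rw [mul_assoc]; exact norm_mul_le _ _
  have hxx : Le x x := fun ε hε => ⟨1, by simpa using hε⟩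
  have h0 : Le x 0 := fun ε hε => ⟨0, by simpa using hε⟩
  obtain ⟨B, _, π, -, hπ, -⟩ := exists_quot {w : D | Le x w ∧ Le x (star w)}
    ⟨h0, by rwa [star_zero]⟩
    (fun a ha b hb => ⟨ha.1.add hPI hx hb.1, by rw [star_add]; exact ha.2.add hPI hx hb.2⟩)
    (fun c a ha => ⟨hl _ _ ha.1, by rw [star_mul]; exact ha.2.mul _⟩)
    (fun c a ha => ⟨ha.1.mul _, by rw [star_mul]; exact hl _ _ ha.2⟩)
    (fun a ha => ⟨ha.2, by rw [star_star]; exact ha.1⟩)
    ((Le.closed x).inter ((Le.closed x).preimage continuous_star))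
  have h1 : π (star x * x) = 0 :=
    (hπ _).2 ⟨hl _ _ hxx, by rw [star_mul, star_star]; exact hl _ _ hxx⟩
  rw [map_mul, map_star] at h1
  exact ((hπ z).1 (hz B π (eq_zero_of_sq h1))).1

/-- Exactification. -/
theorem exact {x e ψ φ : D} (hx : ‖star x * x - e‖ ≤ 3 / 4) (hψ : star ψ = ψ) (he : e * ψ = ψ)
    (hφ : ψ * φ = φ) (h1 : ‖φ‖ ≤ 1) :
    ∃ y ∈ closure {y | ∃ d : D, ‖d‖ ≤ 2 ∧ y = x * ψ * d}, star y * y = star φ * φ := by
  refine fact (x * ψ) φ zero_le_two fun K hK => ?_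
  have a1 : ‖K * φ‖ ≤ ‖ψ * K‖ := by
    rw [← hφ, ← mul_assoc, ← norm_star (ψ * K), star_mul, hψ, hK.star_eq]
    simpa using nmul_le (le_refl ‖K * ψ‖) h1
  have e1 : star (ψ * K) * (ψ * K) = star (x * ψ * K) * (x * ψ * K) -
      star (ψ * K) * (star x * x - e) * (ψ * K) := by
    simp only [star_mul]
    calc star K * star ψ * (ψ * K) = star K * star ψ * (e * ψ * K) := by rw [he]
      _ = _ := by noncomm_ring
  have a2 : ‖ψ * K‖ ^ 2 ≤ ‖x * ψ * K‖ ^ 2 + 3 / 4 * ‖ψ * K‖ ^ 2 := by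
    conv_lhs => rw [← nsq, e1]
    refine (norm_sub_le _ _).trans ?_
    rw [nsq]
    have := nconj (ψ * K) (star x * x - e)
    nlinarith [sq_nonneg ‖ψ * K‖]
  have a3 : ‖ψ * K‖ ≤ 2 * ‖x * ψ * K‖ :=
    (abs_le_of_sq_le_sq' (by nlinarith) (by positivity)).2
  linarith

lemma top_closed (l : D) : IsClosed {w : D | l * w = w} :=
  isClosed_eq (by fun_prop) continuous_id

/-- Exact comparison. -/
theorem cmpx {χ : D →⋆ₐ[ℂ] ℂ} (hPI : PI χ) {x φ : D} {κ : ℕ → D} (hκ : Chain κ) (hx : χ x = 0)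
    (hc : Cov x (κ 0)) (hφ : κ 1 * φ = φ) (h1 : ‖φ‖ ≤ 1) :
    ∃ y, star y * y = star φ * φ ∧ ∀ S : Set D, IsClosed S → (∀ d, x * d ∈ S) → y ∈ S := by
  obtain ⟨r, hr⟩ := cmp hPI hx hc (3 / 4) (by norm_num)
  obtain ⟨y, hy, hyy⟩ := exact hr.le (hκ.sa 1)
    (by rw [hκ.sa, mul_assoc, hκ.mul, hκ.mul]) hφ h1
  refine ⟨y, hyy, fun S hS h => hS.closure_subset_iff.2 ?_ hy⟩
  rintro _ ⟨d, -, rfl⟩
  rw [mul_assoc, mul_assoc]
  exact h _

theorem cmpx' {χ : D →⋆ₐ[ℂ] ℂ} (hPI : PI χ) {x φ : D} {κ : ℕ → D} (hκ : Chain κ) (hx : χ x = 0)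
    (hc : Cov x (κ 0)) (hφ : κ 1 * φ = φ) (h1 : ‖φ‖ ≤ 1) :
    ∃ y, star y * y = star φ * φ ∧ ∀ l, l * x = x → l * y = y := by
  obtain ⟨y, hy, h⟩ := cmpx hPI hκ hx hc hφ h1
  exact ⟨y, hy, fun l hl => h {w | l * w = w} (top_closed l) fun d => by
    rw [Set.mem_ofPred_eq, ← mul_assoc, hl]⟩

lemma closure_pair {S T : Set D} {a : ℝ} (h : ∀ x ∈ S, ∀ y ∈ T, ‖star x * y‖ ≤ a) {x y : D}
    (hx : x ∈ closure S) (hy : y ∈ closure T) : ‖star x * y‖ ≤ a := by
  have h1 : ∀ y ∈ T, ‖star x * y‖ ≤ a := fun y hy =>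
    (isClosed_le (f := fun x : D => ‖star x * y‖) (by fun_prop)
      continuous_const).closure_subset_iff.2 (fun x hx => h x hx y hy) hx
  exact (isClosed_le (f := fun y : D => ‖star x * y‖) (by fun_prop)
      continuous_const).closure_subset_iff.2 h1 hy

/-- Two almost orthogonal exact copies. -/
theorem split {χ : D →⋆ₐ[ℂ] ℂ} (hPI : PI χ) {κ : ℕ → D} (hκ : Chain κ) (h0 : χ (κ 0) = 0)
    {η : ℝ} (hη : 0 < η) :
    ∃ r r' : D, κ 0 * r = r ∧ κ 0 * r' = r' ∧ star r * r = κ 3 * κ 3 ∧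
      star r' * r' = κ 3 * κ 3 ∧ ‖star r * r'‖ ≤ η := by
  obtain ⟨a, b, h1, h2, h3⟩ := hPI (κ 1) (hκ.chi χ h0 1) (min (3 / 4) (η / 4)) (by positivity)
  have he : star (κ 1) * κ 1 * κ 2 = κ 2 := by rw [hκ.sa, mul_assoc, hκ.mul, hκ.mul]
  obtain ⟨r, hr, hrr⟩ := exact (h1.le.trans (min_le_left _ _)) (hκ.sa 2) he (hκ.mul 2) (hκ.le 3)
  obtain ⟨r', hr', hrr'⟩ := exact (h2.le.trans (min_le_left _ _)) (hκ.sa 2) he (hκ.mul 2) (hκ.le 3)
  rw [hκ.sa] at hrr hrr'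
  have ht : ∀ a : D, {y | ∃ d : D, ‖d‖ ≤ 2 ∧ y = κ 1 * a * κ 2 * d} ⊆ {w | κ 0 * w = w} := by
    rintro a _ ⟨d, -, rfl⟩
    rw [Set.mem_ofPred_eq, ← mul_assoc, ← mul_assoc, ← mul_assoc, hκ.mul]
  refine ⟨r, r', (top_closed _).closure_subset_iff.2 (ht a) hr,
    (top_closed _).closure_subset_iff.2 (ht b) hr', hrr, hrr', closure_pair ?_ hr hr'⟩
  rintro _ ⟨d, hd, rfl⟩ _ ⟨d', hd', rfl⟩
  have e : star (κ 1 * a * κ 2 * d) * (κ 1 * b * κ 2 * d') =
      star d * star (κ 2) * (star (κ 1 * a) * (κ 1 * b)) * κ 2 * d' := by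
    simp only [star_mul]; noncomm_ring
  rw [e]
  have := nmul_le (nmul_le (nmul_le (nmul_le (nstar_le hd) (nstar_le (hκ.le 2)))
    (h3.le.trans (min_le_right _ _))) (hκ.le 2)) hd'
  linarith

end Crest.Agent.R110
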